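import Vale.Agent.P261Z.H.Sk
import Vale.Agent.P261Z.Cs.All

/-!
# P261Z, block H: the bridge from the ground field to natural functions over a perfect base
-/

open scoped TensorProduct
open AddMonoidAlgebra

set_option linter.unusedSectionVars false

noncomputable section

namespace P261.Bt

open Cs

namespace BrAux

section transfer

variable {k : Type} [Field k] {C : Cos.{0} k} {A : Cos.{1} k} (B : Type) [AddCommGroup B] [Module k B]

/-- the inclusion of a subobject after base change -/
def J (P : Cs.Sub C) : Hom (tens (const k B) P.cos) (tens (const k B) C) :=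
  (Hom.id (const k B)).tens P.incl

theorem J_inj (P : Cs.Sub C) (n : ℕ) : Function.Injective ((J B P).app n) :=
  Module.Flat.lTensor_preserves_injective_linearMap (M := B) (P.S n).subtype (P.S n).injective_subtype

theorem transfer (Ψ : Hom (tens (const k B) C) A) (hi : ∀ n, Function.Injective (Ψ.app n))
    {P Q : Cs.Sub C} {P' Q' : Cs.Sub A}
    (hP : ∀ n, ∀ g ∈ P'.S n, ∃ y, Ψ.app n ((J B P).app n y) = g)
    (hQ : ∀ n y, Ψ.app n ((J B Q).app n y) ∈ Q'.S n) {φ : Hom C C} {ψ : Hom A A}
    (hc : ∀ n r x, Ψ.app n (r ⊗ₜ φ.app n x) = ψ.app n (Ψ.app n (r ⊗ₜ x)))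
    (hm : ∀ n, ∀ x ∈ P.S n, φ.app n x ∈ Q.S n) {n : ℕ} (H : NullOn φ P Q n) : NullOn ψ P' Q' n := by
  intro g hg hd
  obtain ⟨y, rfl⟩ := hP n g hg
  have h1 : (tens (const k B) P.cos).d n y = 0 := J_inj B P _ (hi _ (by
    rw [Hom.map_d, Hom.map_d, hd, map_zero, map_zero]))
  have h2 := (All.kun k).1 B _ _ _ n ((null_res_iff φ P Q hm n).2 H) y h1
  have h3 : ∀ y, ψ.app n (Ψ.app n ((J B P).app n y)) = Ψ.app n ((J B Q).app n
      (((Hom.id (const k B)).tens (φ.res P Q hm)).app n y)) := fun y => by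
    induction y using TensorProduct.induction_on with
    | zero => simp only [map_zero]
    | tmul r x => exact (hc n r x.1).symm
    | add a b ha hb => simp only [map_add, ha, hb]
  rw [h3]
  cases n with
  | zero => rw [(Submodule.mem_bot k).1 h2, map_zero, map_zero]; exact zero_mem _
  | succ n =>
    obtain ⟨w, hw⟩ := h2
    exact ⟨_, hQ n w, by rw [← hw, Hom.map_d, Hom.map_d]⟩

end transfer

variable {p : ℕ} [hp : Fact p.Prime] {E : Type} [Fintype E] [DecidableEq E] {h : ℕ} {k : Type}
  [Field k] [Pf p k] {B : Type} [CommRing B] [Algebra k B] [Pf p B]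

variable (p E h k B) in
/-- the complex of natural functions -/
abbrev AA : FA.{1} p k := LF1 (PF.base p k B) (sA p k E h) .on

variable (E h B) in
/-- the configurations -/
abbrev Cf (n : ℕ) (T : FP p k) : Type :=
  (LS p k E h (PF.base p k B)).Conf (fun _ : Unit => (sA p k E h).c) (fun _ => .on) (n + 1) T

variable {n : ℕ} {T T' : FP p k}

/-- the vertex without a lattice -/
def vx {K : Type} [CommRing K] (a : E → WittVector p K) : LV p E h K := ⟨a, false, 0, 0, 0, 0⟩

/-- the points of a configuration -/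
def pt (z : Cf E h B n T) (i : Fin (n + 1)) : E → T.W :=
  LV.a (h := h) ((z.w () i).get (z.on () i rfl))

theorem pt_eq {z : Cf E h B n T} {i : Fin (n + 1)} {v : LV p E h T.K} (e : z.w () i = some v) :
    pt z i = v.a := congrArg LV.a (Option.get_of_eq_some _ e)

theorem w_eq (z : Cf E h B n T) (i : Fin (n + 1)) : z.w () i = some (vx (pt z i)) := by
  obtain ⟨v, e⟩ := Option.isSome_iff_exists.1 (z.on () i rfl)
  obtain ⟨-, h2, h3, h4, h5, h6⟩ := (z.col () i v e).1
  rw [pt_eq e, e]
  exact congrArg some (LV.ext rfl h2 h3 h4 h5 h6)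

theorem pt_pt (z : Cf E h B n T) : Pt h T.F (pt z) :=
  ⟨fun i => (z.col () i _ (w_eq z i)).1.1, fun i j => (z.ok () i _ () j _ (w_eq z i) (w_eq z j)).a⟩

theorem cf_ext {z z' : Cf E h B n T} (hx : z.x = z'.x) (ha : pt z = pt z') : z = z' :=
  Sys.Conf.ext hx (funext fun _ => funext fun i => (w_eq z i).trans (ha ▸ (w_eq z' i).symm))

theorem pt_map (φ : T.Hom T') (z : Cf E h B n T) :
    pt (z.map φ) = fun i l => wm p (φ.f : T.K →+* T'.K) (pt z i l) :=
  funext fun i => pt_eq (v := (vx (pt z i)).map φ.r) (congrArg (Option.map _) (w_eq z i))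

variable (p E k B n) in
/-- the universal test object -/
abbrev UU : FP p k :=
  { K := CR p E B n
    F := fl p E B n
    cl := PP.fil_closed _
    k0 := fun c => PP.C_mem _ (algebraMap k B c) }

variable (p E h k B n) in
/-- the universal configuration -/
def uu : Cf E h B n (UU p E k B n) where
  x := ⟨singleZeroAlgHom, fun r => PP.C_mem _ r⟩
  w _ i := some (vx (uv p h B n i))
  col _ i _ e := Option.some.inj e ▸ ⟨⟨pt_uv.D i, rfl, rfl, rfl, rfl, rfl⟩, trivial⟩
  ok _ i _ _ j _ e e' := Option.some.inj e ▸ Option.some.inj e' ▸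
    ⟨pt_uv.df i j, fun e => absurd e Bool.false_ne_true⟩
  on _ _ _ := rfl
  off _ _ e := by cases e

/-- the classifying map of a configuration -/
def cl (z : Cf E h B n T) : (UU p E k B n).Hom T :=
  ⟨ev h z.x.1 (pt z), ev_maps z.x.2 (pt_pt z)⟩

theorem uu_map (z : Cf E h B n T) : (uu p E h k B n).map (cl z) = z :=
  cf_ext (Subtype.ext (AlgHom.ext fun r => ev_C (h := h) z.x.1 (pt z) r))
    ((pt_map _ _).trans (funext₂ fun i l => wm_ev z.x.1 (pt z) i l))

theorem cl_uu (x : CR p E B n) : (cl (uu p E h k B n)).f x = x :=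
  (DFunLike.congr_fun (eq_ev (h := h) (AlgHom.id k (CR p E B n)) (fun _ => rfl) fun _ _ => wm_id _) x).symm

theorem cl_map (φ : T.Hom T') (z : Cf E h B n T) (x : CR p E B n) :
    (cl (z.map φ)).f x = φ.f ((cl z).f x) := by
  refine Eq.trans ?_ (DFunLike.congr_fun (comp_ev φ.f z.x.1 (pt z)) x).symm
  rw [← pt_map]
  rfl

variable (p E k B n) in
/-- base change of the coordinate ring -/
def eb : B ⊗[k] CR p E k n ≃ₗ[k] CR p E B n :=
  (scalarTensorEquiv (M := Mon p (Fin (n + 1) × E × ℕ)) k B).toLinearEquiv.restrictScalars k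

/-- evaluation at a configuration -/
def lz (z : Cf E h B n T) : B ⊗[k] CR p E k n →ₗ[k] T.K :=
  (cl z).f.toLinearMap ∘ₗ (eb p E k B n).toLinearMap

theorem cl_tmul (z : Cf E h B n T) (r : B) (x : CR p E k n) :
    lz z (r ⊗ₜ x) = z.x.1 r * ev0 h k (pt z) x := by
  have e : (ev h z.x.1 (pt z)).comp (mapAlgHom _ (Algebra.ofId k B)) = ev0 h k (pt z) :=
    PP.algHom_ext' fun i => by
      have : mapAlgHom _ (Algebra.ofId k B) (PP.X i : CR p E k n) = (PP.X i : CR p E B n) := by
        simp [PP.X]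
      rw [AlgHom.comp_apply, this, ev0, ev, ev, PP.lift_X, PP.lift_X]
  refine (congrArg (ev h z.x.1 (pt z)) (scalarTensorEquiv_tmul r x)).trans ?_
  rw [Algebra.smul_def, ← e, map_mul]
  exact congrArg (· * _) (ev_C z.x.1 (pt z) r)

variable (p E h k B) in
/-- the comparison map -/
def Psi : Hom (tens (const k B) (bt p E h k).cos) (AA p E h k B).C where
  app n :=
    { toFun := fun y => ⟨fun _ z => lz z y, fun _ _ φ z => cl_map φ z _,
        fun _ _ ⟨_, e, _⟩ => by cases e⟩
      map_add' := fun x y => Subtype.ext (funext fun _ => funext fun z => (lz z).map_add x y)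
      map_smul' := fun c y => Subtype.ext (funext fun _ => funext fun z => (lz z).map_smul c y) }
  nat f y := by
    induction y using TensorProduct.induction_on with
    | zero => simp only [map_zero]
    | add a b ha hb => simp only [map_add, ha, hb]
    | tmul r x =>
      refine Subtype.ext (funext fun T => funext fun z => (cl_tmul z r _).trans
        (Eq.trans (congrArg _ ?_) (cl_tmul (z.res f) r x).symm))
      refine (map_ev0 (ev0 h k (pt z)) _ x).trans ?_
      simp only [wm_ev0]
      rfl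

theorem Psi_tmul (r : B) (x : CR p E k n) (z : Cf E h B n T) :
    ((Psi p E h k B).app n (r ⊗ₜ x)).1 T z = z.x.1 r * ev0 h k (pt z) x := cl_tmul z r x

theorem Psi_inj (n : ℕ) : Function.Injective ((Psi p E h k B).app n) := fun _ _ e =>
  (eb p E k B n).injective ((cl_uu _).symm.trans
    ((congrArg (fun g => g.1 _ (uu p E h k B n)) e).trans (cl_uu _)))

theorem Psi_mem (β : ℝ) (n : ℕ) (y) :
    (Psi p E h k B).app n ((J B (G p E h k β)).app n y) ∈ ((AA p E h k B).F β).S n := by
  induction y using TensorProduct.induction_on with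
  | zero => simp only [map_zero, zero_mem]
  | add a b ha hb => simp only [map_add]; exact add_mem ha hb
  | tmul r x =>
    intro T z
    exact (Psi_tmul r x.1 z).symm ▸
      Fil.mul_le (z.x.2 r) (ev0_maps T.k0 (pt_pt z) _ _ x.2) (zero_add β).le

theorem Psi_surj (β : ℝ) (n : ℕ) (g) (hg : g ∈ ((AA p E h k B).F β).S n) :
    ∃ y, (Psi p E h k B).app n ((J B (G p E h k β)).app n y) = g := by
  obtain ⟨y, hy⟩ : ∃ y, (J B (G p E h k β)).app n y =
      (eb p E k B n).symm (g.1 _ (uu p E h k B n)) := by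
    refine wFil_induction (he := Mon.mulP_apply) (P := fun x => ∃ y, (J B (G p E h k β)).app n y =
      (eb p E k B n).symm x) ⟨0, by simp only [map_zero]⟩ ?_ (fun m r hm => ?_)
        (hg (UU p E k B n) (uu p E h k B n))
    · rintro _ _ ⟨a, ha⟩ ⟨b, hb⟩
      exact ⟨a + b, by rw [map_add, map_add, ha, hb]⟩
    · exact ⟨r ⊗ₜ ⟨single m 1, single_mem_wFil (he := Mon.mulP_apply) _ hm⟩,
        (scalarTensorEquiv_symm_single m r).symm⟩
  refine ⟨y, Subtype.ext (funext fun T => funext fun z => ?_)⟩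
  rw [hy]
  refine (congrArg (cl z).f ((eb p E k B n).apply_symm_apply _)).trans ?_
  exact (g.2.1 _ _ (cl z) _).symm.trans (congrArg _ (uu_map z))

theorem Psi_act {s : ℕ} (hs : s % p = 1) (n : ℕ) (r : B) (x : CR p E k n) :
    (Psi p E h k B).app n (r ⊗ₜ (scl p E h k s).app n x) =
      ((AA p E h k B).act s).app n ((Psi p E h k B).app n (r ⊗ₜ x)) := by
  refine Subtype.ext (funext fun T => funext fun z => ?_)
  let z' : Cf E h B n T := (((lact p k E h (PF.base p k B)).e s).cmap _ _
    fun _ => stab_of_sc (sA p k E h).sc s).f z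
  have e : pt z' = fun i l => (s : T.W) * pt z i l := funext fun i => by
    rw [pt_eq (z := z') (v := (vx (pt z i)).sc' s) (congrArg (Option.map _) (w_eq z i)), LV.sc'_eq hs]
    rfl
  refine (Psi_tmul r _ z).trans (Eq.trans ?_ (Psi_tmul r x z').symm)
  rw [scl_app, map_ev0, e]
  simp only [map_mul, map_natCast, wm_ev0]
  rfl

theorem scl_mem (s : ℕ) {β : ℝ} {x : CR p E k n} (hx : x ∈ (fl p E k n).F β) :
    (scl p E h k s).app n x ∈ (fl p E k n).F β := by
  have H : Pt h (fl p E k n) fun i l => (s : WittVector p _) * uv p h k n i l := ⟨fun i l => by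
      rw [← nsmul_eq_mul, map_nsmul]
      exact nsmul_mem (pt_uv.D i l) s, fun i j l => by
      rw [← mul_sub, ← nsmul_eq_mul]
      exact nsmul_mem (pt_uv.df i j l) s⟩
  rw [scl_app]
  exact ev0_maps C_mem H _ _ hx

end BrAux

open BrAux

theorem hbr (p : ℕ) [hp : Fact p.Prime] (E : Type) (h : ℕ) (k : Type) [Field k] [Pf p k] :
    HBR p E h k := by
  intro _ _ B _ _ _ H
  refine ⟨fun n => (H.rat n).imp fun ρ hρ => ⟨hρ.1, fun β hβ => ?_⟩,
    fun n => (H.hc n).imp fun ρ hρ => ⟨hρ.1, fun e s he hs β hβ => ?_⟩⟩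
  · exact transfer B (Psi p E h k B) Psi_inj (Psi_surj β) (Psi_mem _) (φ := Hom.id _) (fun _ _ _ => rfl)
      (fun n _ hx => Fil.le (F := fl p E k n) (s := β) hx (le_mul_of_one_le_left hβ hρ.1)) (hρ.2 β hβ)
  · have hs' : s % p = 1 := by
      rw [← Nat.mod_mod_of_dvd s (dvd_pow_self p (by omega : e ≠ 0)), hs, Nat.mod_eq_of_lt one_lt_p]
    refine transfer B (Psi p E h k B) Psi_inj (Psi_surj β) (Psi_mem _) (fun n r x => ?_)
      (fun n x hx => ?_) (hρ.2 e s he hs β hβ)
    · rw [Hom.sub_app, Hom.sub_app, TensorProduct.tmul_sub, map_sub, Psi_act hs']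
      rfl
    · have h0 := hρ.1
      exact Fil.le (sub_mem (scl_mem s hx) hx) (le_add_of_nonneg_right (by positivity))

end P261.Bt
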