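import Vale.Agent.P261Z.H.PP
import Vale.Agent.P261Z.W.Hull
import Vale.Agent.P261Z.Cs.Defs

/-!
# P261Z, block H: the universal configurations of the colour `A`
-/

open scoped TensorProduct
open AddMonoidAlgebra

set_option linter.unusedSectionVars false

noncomputable section

namespace P261.Bt

variable {p : ℕ} [hp : Fact p.Prime] {E : Type} {h : ℕ}

section dinv

variable {K L : Type*} [CommRing K] [Pf p K] [CommRing L] [Pf p L]

variable (h) in
/-- the inverse of `D` -/
def Dinv (x : WittVector p K) : WittVector p K := (Dop_bijective h).2.hasRightInverse.choose x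

theorem Dop_Dinv (x : WittVector p K) : Dop p K h (Dinv h x) = x :=
  (Dop_bijective h).2.hasRightInverse.choose_spec x

omit [Pf p K] [Pf p L] in
theorem wm_ofDg (f : K →+* L) (a : ℕ → K) : wm p f (ofDg a) = ofDg fun j => f (a j) := by
  ext j
  exact map_pow f _ _

theorem wm_id {k A : Type*} [CommRing k] [CommRing A] [Algebra k A] (x : WittVector p A) :
    wm p (AlgHom.id k A : A →+* A) x = x := rfl

variable (h) in
/-- the bounds on a configuration -/
structure Pt (F : Fil p K) {n : ℕ} (a : Fin (n + 1) → E → WittVector p K) : Prop where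
  D : ∀ i l, Dop p K h (a i l) ∈ F.WL 1
  df : ∀ i j l, a i l - a j l ∈ F.WL 1

theorem Pt.map {F : Fil p K} {G : Fil p L} {n : ℕ} {a : Fin (n + 1) → E → WittVector p K} (ha : Pt h F a)
    {f : K →+* L} (hf : Fil.Maps f F G) : Pt h G fun i l => wm p f (a i l) :=
  ⟨fun i l => by rw [← wm_Dop]; exact Fil.WS_map hf (ha.D i l),
    fun i j l => by rw [← map_sub]; exact Fil.WS_map hf (ha.df i j l)⟩

theorem Pt.add {F : Fil p K} {n : ℕ} {a a' : Fin (n + 1) → E → WittVector p K} (ha : Pt h F a)
    (ha' : Pt h F a') : Pt h F fun i l => a i l + a' i l :=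
  ⟨fun i l => by rw [map_add]; exact add_mem (ha.D i l) (ha'.D i l),
    fun i j l => by rw [add_sub_add_comm]; exact add_mem (ha.df i j l) (ha'.df i j l)⟩

theorem Pt.res {F : Fil p K} {m n : ℕ} {a : Fin (n + 1) → E → WittVector p K} (ha : Pt h F a)
    (f : Fin (m + 1) → Fin (n + 1)) : Pt h F fun i => a (f i) :=
  ⟨fun i => ha.D (f i), fun i j => ha.df (f i) (f j)⟩

/-- the coordinates of a configuration -/
def crd (h : ℕ) {n : ℕ} (a : Fin (n + 1) → E → WittVector p K) (i : Fin (n + 1)) (l : E) : WittVector p K :=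
  if i = 0 then Dop p K h (a 0 l) else a i l - a 0 l

end dinv

variable (p E) in
/-- the coordinate ring of the configurations on `n + 1` points -/
abbrev CR (B : Type) [CommRing B] (n : ℕ) : Type := PP p B (Fin (n + 1) × E × ℕ)

section base

variable {B : Type} [CommRing B] [Pf p B] {n : ℕ}

variable (p E B n) in
/-- the filtration -/
abbrev fl : Fil p (CR p E B n) := PP.fil B fun _ => 1

variable (B) in
/-- the coordinates as Witt vectors -/
def cw (i : Fin (n + 1)) (l : E) : WittVector p (CR p E B n) := ofDg fun j => PP.X (i, l, j)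

variable (p h B n) in
/-- the universal configuration -/
def uv (i : Fin (n + 1)) (l : E) : WittVector p (CR p E B n) :=
  Dinv h (cw B 0 l) + if i = 0 then 0 else cw B i l

theorem crd_uv (i : Fin (n + 1)) (l : E) : crd h (uv p h B n) i l = cw B i l := by
  by_cases hi : i = 0
  · simp [crd, uv, hi, Dop_Dinv]
  · simp [crd, uv, hi]

theorem cw_mem (i : Fin (n + 1)) (l : E) : cw B i l ∈ (fl p E B n).WL 1 :=
  Fil.WL_iff_dg.2 fun j => by rw [cw, dg_ofDg]; exact PP.X_mem (fun _ => 1) _

theorem pt_uv : Pt h (fl p E B n) (uv p h B n) := by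
  have h1 : ∀ (i : Fin (n + 1)) (l : E), (if i = 0 then 0 else cw B i l) ∈ (fl p E B n).WL 1 := fun i l => by
    split_ifs
    exacts [zero_mem _, cw_mem i l]
  refine ⟨fun i l => ?_, fun i j l => ?_⟩
  · rw [uv, map_add, Dop_Dinv]
    exact add_mem (cw_mem 0 l) (Fil.WL_Dop h zero_le_one (h1 i l))
  · rw [uv, uv, add_sub_add_left_eq_sub]
    exact sub_mem (h1 i l) (h1 j l)

variable {k : Type} [CommRing k] [Algebra k B] {T T' : Type*} [CommRing T] [Pf p T] [Algebra k T]
  [CommRing T'] [Pf p T'] [Algebra k T']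

variable (h) in
/-- evaluation at a configuration -/
def ev (b : B →ₐ[k] T) (a : Fin (n + 1) → E → WittVector p T) : CR p E B n →ₐ[k] T :=
  PP.lift b fun x => dg (crd h a x.1 x.2.1) x.2.2

omit [Pf p B] in
@[simp] theorem ev_C (b : B →ₐ[k] T) (a : Fin (n + 1) → E → WittVector p T) (r : B) :
    ev h b a (single 0 r) = b r := PP.lift_C _ _ _

theorem wm_ev_cw (b : B →ₐ[k] T) (a : Fin (n + 1) → E → WittVector p T) (i : Fin (n + 1)) (l : E) :
    wm p (ev h b a : CR p E B n →+* T) (cw B i l) = crd h a i l := by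
  rw [cw, wm_ofDg]
  simp [ev]

theorem wm_ev (b : B →ₐ[k] T) (a : Fin (n + 1) → E → WittVector p T) (i : Fin (n + 1)) (l : E) :
    wm p (ev h b a : CR p E B n →+* T) (uv p h B n i l) = a i l := by
  have h0 : wm p (ev h b a : CR p E B n →+* T) (Dinv h (cw B 0 l)) = a 0 l :=
    (Dop_bijective h).1 (by rw [← wm_Dop, Dop_Dinv, wm_ev_cw, crd, if_pos rfl])
  rw [uv, map_add, h0]
  by_cases hi : i = 0
  · simp [hi]
  · rw [if_neg hi, wm_ev_cw, crd, if_neg hi, add_sub_cancel]

theorem wm_crd (f : T →+* T') (a : Fin (n + 1) → E → WittVector p T) (i : Fin (n + 1)) (l : E) :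
    wm p f (crd h a i l) = crd h (fun i l => wm p f (a i l)) i l := by
  unfold crd
  split_ifs
  exacts [wm_Dop _ _ _, map_sub _ _ _]

theorem ev_ext {f g : CR p E B n →ₐ[k] T} (hb : ∀ r, f (single 0 r) = g (single 0 r))
    (ha : ∀ i l, wm p (f : CR p E B n →+* T) (uv p h B n i l) = wm p (g : CR p E B n →+* T) (uv p h B n i l)) :
    f = g := by
  refine PP.algHom_ext hb fun ⟨i, l, j⟩ => ?_
  have h1 : wm p (f : CR p E B n →+* T) (cw B i l) = wm p (g : CR p E B n →+* T) (cw B i l) := by
    rw [← crd_uv (h := h), wm_crd, wm_crd, funext₂ ha]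
  have h2 := congrArg (fun x => dg x j) h1
  simpa [dg_wm, cw] using h2

theorem eq_ev (f : CR p E B n →ₐ[k] T) {b : B →ₐ[k] T} {a : Fin (n + 1) → E → WittVector p T}
    (hb : ∀ r, f (single 0 r) = b r)
    (ha : ∀ i l, wm p (f : CR p E B n →+* T) (uv p h B n i l) = a i l) : f = ev h b a :=
  ev_ext (h := h) (fun r => by rw [hb, ev_C]) fun i l => by rw [ha, wm_ev]

theorem comp_ev (f : T →ₐ[k] T') (b : B →ₐ[k] T) (a : Fin (n + 1) → E → WittVector p T) :
    f.comp (ev h b a) = ev h (f.comp b) fun i l => wm p (f : T →+* T') (a i l) :=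
  eq_ev _ (fun r => by simp) fun i l => by rw [← wm_ev (h := h) b a i l, wm_comp]; rfl

theorem ev_maps {F : Fil p T} {b : B →ₐ[k] T} {a : Fin (n + 1) → E → WittVector p T}
    (hb : ∀ r, b r ∈ F.F 0) (ha : Pt h F a) : Fil.Maps (ev h b a : CR p E B n →+* T) (fl p E B n) F :=
  fun _ _ hx => PP.lift_maps hb (fun x => Fil.WL_iff_dg.1 (by
    unfold crd
    split_ifs
    exacts [ha.D _ _, ha.df _ _ _]) _) hx

end base

section field

variable {k : Type} [Field k] [Pf p k] {T T' : Type*} [CommRing T] [Pf p T] [Algebra k T]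
  [CommRing T'] [Pf p T'] [Algebra k T'] {n : ℕ}

variable (h k) in
/-- evaluation over the ground field -/
def ev0 (a : Fin (n + 1) → E → WittVector p T) : CR p E k n →ₐ[k] T := ev h (Algebra.ofId k T) a

theorem wm_ev0 (a : Fin (n + 1) → E → WittVector p T) (i : Fin (n + 1)) (l : E) :
    wm p (ev0 h k a : CR p E k n →+* T) (uv p h k n i l) = a i l := wm_ev _ a i l

theorem eq_ev0 (f : CR p E k n →ₐ[k] T) {a : Fin (n + 1) → E → WittVector p T}
    (ha : ∀ i l, wm p (f : CR p E k n →+* T) (uv p h k n i l) = a i l) : f = ev0 h k a :=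
  eq_ev f (fun r => f.commutes r) ha

theorem comp_ev0 (f : T →ₐ[k] T') (a : Fin (n + 1) → E → WittVector p T) :
    f.comp (ev0 h k a) = ev0 h k fun i l => wm p (f : T →+* T') (a i l) :=
  eq_ev0 _ fun i l => by rw [← wm_ev0 (h := h) (k := k) a i l, wm_comp]; rfl

theorem map_ev0 (f : T →ₐ[k] T') (a : Fin (n + 1) → E → WittVector p T) (x : CR p E k n) :
    f (ev0 h k a x) = ev0 h k (fun i l => wm p (f : T →+* T') (a i l)) x :=
  DFunLike.congr_fun (comp_ev0 f a) x

theorem ev0_uv : ev0 h k (uv p h k n) = AlgHom.id k (CR p E k n) := 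
  (eq_ev0 (AlgHom.id k (CR p E k n)) fun _ _ => wm_id _).symm

theorem ev0_zero : ev0 h k (0 : Fin (n + 1) → E → WittVector p T) =
    (Algebra.ofId k T).comp (ev0 h k (0 : Fin (n + 1) → E → WittVector p k)) := by
  rw [comp_ev0]
  exact congrArg _ (funext₂ fun _ _ => (map_zero _).symm)

theorem C_mem (r : k) : algebraMap k (CR p E k n) r ∈ (fl p E k n).F 0 := PP.C_mem _ r

theorem ev0_maps {F : Fil p T} {a : Fin (n + 1) → E → WittVector p T}
    (hb : ∀ r, algebraMap k T r ∈ F.F 0) (ha : Pt h F a) :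
    Fil.Maps (ev0 h k a : CR p E k n →+* T) (fl p E k n) F := ev_maps hb ha

variable (p E h k) in
/-- the coordinate rings of the configurations -/
@[reducible] def bt : Cs.CosAlg.{0} k where
  X n := CR p E k n
  map f := ev0 h k fun i => uv p h k _ (f i)
  map_id _ x := DFunLike.congr_fun ev0_uv x
  map_comp f g x := by
    rw [map_ev0]
    simp only [wm_ev0]
    rfl

variable (p E k n) in
/-- the first factor -/
def iL : CR p E k n →+* CR p E k n ⊗[k] CR p E k n := Algebra.TensorProduct.includeLeftRingHom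

variable (p E k n) in
/-- the second factor -/
def iR : CR p E k n →+* CR p E k n ⊗[k] CR p E k n :=
  (Algebra.TensorProduct.includeRight : CR p E k n →ₐ[k] CR p E k n ⊗[k] CR p E k n).toRingHom

omit [Pf p k] in
@[simp] theorem iL_apply (x : CR p E k n) : iL p E k n x = x ⊗ₜ 1 := rfl

omit [Pf p k] in
@[simp] theorem iR_apply (x : CR p E k n) : iR p E k n x = 1 ⊗ₜ x := rfl

variable (p E h k n) in
/-- the comultiplication -/
def coF : CR p E k n →ₐ[k] CR p E k n ⊗[k] CR p E k n :=
  ev0 (T := CR p E k n ⊗[k] CR p E k n) h k fun i l =>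
    wm p (iL p E k n) (uv p h k n i l) + wm p (iR p E k n) (uv p h k n i l)

theorem lift_co (f g : CR p E k n →ₐ[k] T) :
    (Algebra.TensorProduct.lift f g fun _ _ => .all _ _).comp (coF p E h k n) =
      ev0 h k fun i l => wm p (f : CR p E k n →+* T) (uv p h k n i l) +
        wm p (g : CR p E k n →+* T) (uv p h k n i l) := by
  refine (comp_ev0 (T := CR p E k n ⊗[k] CR p E k n) _ _).trans ?_
  refine congrArg _ (funext₂ fun i l => ?_)
  rw [map_add, wm_comp, wm_comp]
  congr 1 <;> exact wm_congr (fun a => by simp) _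

variable (p E h k) in
/-- the addition of configurations -/
def law : Cs.Law (bt p E h k) where
  co n := coF p E h k n
  ep _ := ev0 h k 0
  co_nat f x := by
    refine (map_ev0 _ _ x).trans (Eq.trans ?_ (map_ev0 _ _ x).symm)
    refine congrArg (fun a => ev0 h k a x) (funext₂ fun i l => ?_)
    rw [coF, wm_ev0, map_add, wm_comp, wm_comp, ← wm_ev0 (h := h) (k := k) (fun i => uv p h k _ (f i)) i l,
      wm_comp, wm_comp]
    congr 1 <;> exact wm_congr (fun a => by simp) _
  ep_nat f x := by
    rw [map_ev0]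
    exact congrArg (fun a => ev0 h k a x) (funext₂ fun i l => wm_ev0 _ _ _)
  left n x := by
    refine (DFunLike.congr_fun (lift_co _ _) x).trans ?_
    rw [← ev0_zero]
    simp only [wm_ev0, Pi.zero_apply, zero_add]
    exact DFunLike.congr_fun ev0_uv x
  right n x := by
    refine (DFunLike.congr_fun (lift_co _ _) x).trans ?_
    rw [← ev0_zero]
    simp only [wm_ev0, Pi.zero_apply, add_zero]
    exact DFunLike.congr_fun ev0_uv x

theorem law_add (a a' : Fin (n + 1) → E → WittVector p (CR p E k n)) :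
    (law p E h k).add (ev0 h k a) (ev0 h k a') = ev0 h k fun i l => a i l + a' i l := by
  refine (lift_co _ _).trans ?_
  simp only [wm_ev0]

theorem law_pw (N : ℕ) : (law p E h k).pw n N = ev0 h k fun i l => (N : WittVector p _) * uv p h k n i l := by
  induction N with
  | zero =>
    refine ev0_zero.symm.trans (congrArg _ (funext₂ fun i l => by simp))
  | succ N ih =>
    rw [Cs.Law.pw, ih, ← ev0_uv (h := h), law_add]
    exact congrArg _ (funext₂ fun i l => by push_cast; ring)

variable (p E k n) in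
/-- a step of the filtration -/
def stp (β : ℝ) : Submodule k (CR p E k n) :=
  { (fl p E k n).F β with
    smul_mem' := fun c x hx => by
      have e : c • x = algebraMap k _ c * x := Algebra.smul_def c x
      exact e ▸ Fil.mul_le (C_mem c) hx (zero_add β).le }

theorem mem_stp {β : ℝ} {x : CR p E k n} : x ∈ stp p E k n β ↔ x ∈ (fl p E k n).F β := Iff.rfl

variable (p E h k) in
/-- the filtration of the complex -/
def G (β : ℝ) : Cs.Sub (bt p E h k).cos where
  S n := stp p E k n β
  stab f _ hx := ev0_maps C_mem (pt_uv.res f) _ _ hx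

end field

end P261.Bt
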