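import Vale.Agent.P261Z.H.Sk
import Vale.Agent.P261Z.Cs.All

/-!
# P261Z, block H: ratio and small shift over the ground field
-/

set_option linter.unusedSectionVars false

open scoped TensorProduct
open AddMonoidAlgebra

noncomputable section

namespace P261.Bt

variable {p : ℕ} [hp : Fact p.Prime] {E : Type} {h : ℕ} {k : Type} [Field k] [Pf p k]

section stab

variable {n : ℕ}

theorem wt_nonneg {σ : Type*} (m : Mon p σ) : 0 ≤ Mon.wt (fun _ => 1) m :=
  Finset.sum_nonneg fun i _ => mul_nonneg (Lam.nonneg (m i)) zero_le_one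

variable (p E n) in
/-- monomials in two sets of variables -/
abbrev M2 : Type := Mon p (Fin (n + 1) × E × ℕ) × Mon p (Fin (n + 1) × E × ℕ)

variable (p E k n) in
/-- the tensor square as a monoid algebra -/
def th : CR p E k n ⊗[k] CR p E k n →ₐ[k] AddMonoidAlgebra k (M2 p E n) :=
  Algebra.TensorProduct.lift (mapDomainAlgHom k k (AddMonoidHom.inl _ _))
    (mapDomainAlgHom k k (AddMonoidHom.inr _ _)) fun _ _ => .all _ _

theorem th_eq (x : CR p E k n ⊗[k] CR p E k n) : th p E k n x = tensorEquiv k x := by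
  induction x with
  | zero => simp
  | add x y hx hy => rw [map_add, map_add, hx, hy]
  | tmul a b =>
    induction a using induction_linear with
    | zero => simp
    | add x y hx hy => rw [TensorProduct.add_tmul, map_add, map_add, hx, hy]
    | single m r =>
      induction b using induction_linear with
      | zero => simp
      | add x y hx hy => rw [TensorProduct.tmul_add, map_add, map_add, hx, hy]
      | single m' r' => simp [th, single_mul_single]

variable (p E k n) in
/-- the filtration by the total weight -/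
def fl2 : Fil p (AddMonoidAlgebra k (M2 p E n)) :=
  wFil k ((Mon.mulP p _).prodCongr (Mon.mulP p _))
    (fun m => Prod.ext (Mon.mulP_apply m.1) (Mon.mulP_apply m.2))
    ((Mon.wt fun _ => 1).coprod (Mon.wt fun _ => 1))

variable (p E k n) in
/-- the filtration of the tensor square -/
def fl3 : Fil p (CR p E k n ⊗[k] CR p E k n) :=
  (fl2 p E k n).comap (L := CR p E k n ⊗[k] CR p E k n) (th p E k n).toRingHom

theorem maps_th (f : CR p E k n →+* CR p E k n ⊗[k] CR p E k n)
    (hf : ∀ m r, ∃ m', th p E k n (f (single m r)) = single m' r ∧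
      Mon.wt (fun _ => 1) m'.1 + Mon.wt (fun _ => 1) m'.2 = Mon.wt (fun _ => 1) m) :
    Fil.Maps f (fl p E k n) (fl3 p E k n) := fun t _ hx =>
  wFil_induction (P := fun x => f x ∈ (fl3 p E k n).F t)
    (by rw [map_zero]; exact zero_mem _) (fun x y hx hy => by rw [map_add]; exact add_mem hx hy)
    (fun m r hm => by
      obtain ⟨m', h1, h2⟩ := hf m r
      show th p E k n (f (single m r)) ∈ (fl2 p E k n).F t
      rw [h1]
      exact single_mem_wFil _ (h2.le.trans hm)) hx

theorem stab (β : ℝ) : (law p E h k).Stab (G p E h k β) := fun n x hx => by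
  have h1 : th p E k n (coF p E h k n x) ∈ (fl2 p E k n).F β :=
    ev0_maps (F := fl3 p E k n)
      (fun r => by
        show th p E k n (algebraMap k _ r) ∈ (fl2 p E k n).F 0
        rw [AlgHom.commutes]
        exact single_mem_wFil _ (by simp))
      ((pt_uv.map (maps_th (iL p E k n) fun m r => ⟨(m, 0), by simp [th], by simp⟩)).add
        (pt_uv.map (maps_th (iR p E k n) fun m r => ⟨(0, m), by simp [th], by simp⟩))) β x hx
  have h2 : (tensorEquiv k).symm (th p E k n (coF p E h k n x)) ∈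
      LinearMap.range (TensorProduct.mapIncl (stp p E k n β) (stp p E k n β)) := by
    refine wFil_induction (P := fun y => (tensorEquiv k).symm y ∈
      LinearMap.range (TensorProduct.mapIncl (stp p E k n β) (stp p E k n β))) (by simp)
      (fun x y hx hy => by rw [map_add]; exact add_mem hx hy) (fun m r hm => ?_) h1
    have hm' : Mon.wt (fun _ => 1) m.1 + Mon.wt (fun _ => 1) m.2 ≤ β := hm
    rw [tensorEquiv_symm_single_eq_single_zero_tmul]
    have m1 : (single m.1 1 : CR p E k n) ∈ stp p E k n β :=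
      single_mem_wFil (he := Mon.mulP_apply) _ (by linarith [wt_nonneg m.2])
    have m2 : (single m.2 r : CR p E k n) ∈ stp p E k n β :=
      single_mem_wFil (he := Mon.mulP_apply) _ (by linarith [wt_nonneg m.1])
    exact ⟨⟨_, m1⟩ ⊗ₜ ⟨_, m2⟩, TensorProduct.map_tmul _ _ _ _⟩
  rwa [th_eq, LinearEquiv.symm_apply_apply] at h2

end stab

/-- two natural operators which differ by a bounded amount are homotopic -/
theorem htp (φ : Bool → ∀ n, WittVector p (CR p E k n) → WittVector p (CR p E k n))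
    (nat : ∀ c (m n : ℕ) (f : CR p E k m →ₐ[k] CR p E k n) (x : WittVector p (CR p E k m)),
      wm p (f : CR p E k m →+* CR p E k n) (φ c m x) = φ c n (wm p (f : CR p E k m →+* CR p E k n) x))
    (hpt : ∀ n (χ : Fin (n + 1) → Bool), Pt h (fl p E k n) fun i l => φ (χ i) n (uv p h k n i l))
    (β : ℝ) (n : ℕ) (x : CR p E k n) (hx : x ∈ (G p E h k β).S n) (hd : (bt p E h k).cos.d n x = 0) :
    ev0 h k (fun i l => φ true n (uv p h k n i l)) x - ev0 h k (fun i l => φ false n (uv p h k n i l)) x ∈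
      (G p E h k β).bd n := by
  have H := Cs.All.htpy k (G p E h k β).cos (G p E h k β).cos
    (fun n χ => (ev0 h k fun i l => φ (χ i) n (uv p h k n i l)).toLinearMap.restrict
      fun _ hy => ev0_maps C_mem (hpt n χ) _ _ hy)
    (fun m n f χ y => Subtype.ext (by
      refine (map_ev0 (ev0 h k fun i l => φ _ _ (uv p h k _ i l)) _ y.1).trans
        (Eq.trans ?_ (map_ev0 (ev0 h k fun i => uv p h k _ (f i)) _ y.1).symm)
      refine congrArg (fun a => ev0 h k a y.1) (funext₂ fun i l => ?_)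
      rw [wm_ev0, nat, wm_ev0]
      rfl)) n ⟨x, hx⟩ (Subtype.ext (((G p E h k β).coe_d n ⟨x, hx⟩).trans hd))
  exact ((G p E h k β).mem_bd_iff n _).1 H

theorem bd_map (f : Cs.Hom (bt p E h k).cos (bt p E h k).cos) {β β' : ℝ}
    (hf : ∀ n, ∀ x ∈ (G p E h k β).S n, f.app n x ∈ (G p E h k β').S n) {n : ℕ} {x : CR p E k n}
    (hx : x ∈ (G p E h k β).bd n) : f.app n x ∈ (G p E h k β').bd n := by
  cases n with
  | zero =>
    rw [show x = 0 from hx, map_zero]
    exact zero_mem _
  | succ n =>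
    obtain ⟨y, hy, rfl⟩ := hx
    exact ⟨f.app n y, hf n y hy, (f.map_d n y).symm⟩

theorem bd_mono {β β' : ℝ} (hβ : β ≤ β') {n : ℕ} {x : CR p E k n} (hx : x ∈ (G p E h k β).bd n) :
    x ∈ (G p E h k β').bd n := bd_map (Cs.Hom.id _) (fun _ _ hy => Fil.le hy hβ) hx

section witt

variable {K : Type*} [CommRing K] [Pf p K] {F : Fil p K} {x : WittVector p K}

theorem si_pow_mem {t : ℝ} (ht : 0 ≤ t) (hx : x ∈ F.WL t) (j : ℕ) : (si p K ^ j) x ∈ F.WL t :=
  Fil.WL_le (Fil.WS_si_pow hx j) (div_le_self ht (one_le_pow₀ (by linarith [two_le_p (p := p)])))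

theorem si_pow_comm (a b : ℕ) (x : WittVector p K) :
    (si p K ^ a) ((si p K ^ b) x) = (si p K ^ b) ((si p K ^ a) x) := by
  rw [← RingHom.comp_apply, ← RingHom.comp_apply, ← RingHom.mul_def, ← RingHom.mul_def, ← pow_add, ← pow_add,
    add_comm]

theorem Dop_si_pow (j : ℕ) (x : WittVector p K) :
    Dop p K h ((si p K ^ j) x) = (si p K ^ j) (Dop p K h x) := by
  rw [Dop_apply, Dop_apply, map_sub, map_mul, map_natCast, si_pow_comm]

theorem Dop_nat (s : ℕ) (x : WittVector p K) : Dop p K h ((s : WittVector p K) * x) = s * Dop p K h x := by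
  rw [← nsmul_eq_mul, map_nsmul, nsmul_eq_mul]

theorem nat_mul_mem {t : ℝ} (s : ℕ) (hx : x ∈ F.WL t) : (s : WittVector p K) * x ∈ F.WL t :=
  Fil.WS_mul_zero (Fil.WL_natCast s) hx

theorem geom_mem (hx : Dop p K h x ∈ F.WL 1) (r : ℕ) :
    (si p K ^ (h * r)) x - ((p ^ r : ℕ) : WittVector p K) * x ∈ F.WL 1 := by
  induction r with
  | zero => simp
  | succ r ih =>
    have e : (si p K ^ (h * (r + 1))) x - ((p ^ (r + 1) : ℕ) : WittVector p K) * x =
        (si p K ^ (h * r)) (Dop p K h x) +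
          (p : ℕ) * ((si p K ^ (h * r)) x - ((p ^ r : ℕ) : WittVector p K) * x) := by
      rw [mul_add, mul_one, pow_add, RingHom.mul_def, RingHom.comp_apply, Dop_apply, map_sub, map_mul,
        map_natCast]
      push_cast
      ring
    rw [e]
    exact add_mem (si_pow_mem zero_le_one hx _) (nat_mul_mem p ih)

theorem sg_pow_mem {t : ℝ} (hx : x ∈ F.WL t) (j : ℕ) : (sg p K ^ j) x ∈ F.WL (p ^ j * t) := by
  induction j with
  | zero => simpa using hx
  | succ j ih =>
    rw [pow_succ' (sg p K), RingHom.mul_def, RingHom.comp_apply, pow_succ' (p : ℝ), mul_assoc]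
    exact Fil.WL_sg.2 ih

theorem mem_scale {c t : ℝ} (hc : 0 ≤ c) : x ∈ (F.scale c hc).WL t ↔ x ∈ F.WL (c * t) := by
  rw [Fil.mem_WL, Fil.mem_WL]
  exact forall_congr' fun j => by rw [mul_left_comm]; rfl

theorem wm_sg_pow {L : Type*} [CommRing L] [Pf p L] (f : K →+* L) (j : ℕ) (x : WittVector p K) :
    wm p f ((sg p K ^ j) x) = (sg p L ^ j) (wm p f x) := by
  induction j with
  | zero => rfl
  | succ j ih => rw [pow_succ', pow_succ', RingHom.mul_def, RingHom.mul_def, RingHom.comp_apply,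
      RingHom.comp_apply, wm_sg, ih]

theorem Dop_sg_pow (j : ℕ) (x : WittVector p K) :
    Dop p K h ((sg p K ^ j) x) = (sg p K ^ j) (Dop p K h x) := by
  conv_lhs => rw [← sg_si_pow j (Dop p K h _), ← Dop_si_pow, si_sg_pow]

end witt

variable (p E h k) in
/-- the operator `u σ⁻ʲ` -/
def oSi (u j : ℕ) : Cs.Hom (bt p E h k).cos (bt p E h k).cos :=
  opr p E h k (fun n x => (si p _ ^ j) ((u : WittVector p (CR p E k n)) * x)) fun _ _ _ _ => by
    rw [wm_si_pow, map_mul, map_natCast]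

variable (p E h k) in
/-- the operator `σʲ` -/
def oSg (j : ℕ) : Cs.Hom (bt p E h k).cos (bt p E h k).cos :=
  opr p E h k (fun _ x => (sg p _ ^ j) x) fun _ _ _ _ => wm_sg_pow _ _ _

theorem oSg_mem (j : ℕ) (β : ℝ) (n : ℕ) (x : CR p E k n) (hx : x ∈ (G p E h k β).S n) :
    (oSg p E h k j).app n x ∈ (G p E h k (p ^ j * β)).S n :=
  ev0_maps (F := (fl p E k n).scale (p ^ j) (by positivity))
    (fun r => by
      show _ ∈ (fl p E k n).F (p ^ j * 0)
      rw [mul_zero]
      exact C_mem r)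
    ⟨fun i l => (mem_scale _).2 (by rw [Dop_sg_pow]; exact sg_pow_mem (pt_uv.D i l) j),
      fun i i' l => (mem_scale _).2 (by rw [← map_sub]; exact sg_pow_mem (pt_uv.df i i' l) j)⟩ β x hx

theorem oSi_mem (u j : ℕ) (β : ℝ) (n : ℕ) (x : CR p E k n) (hx : x ∈ (G p E h k β).S n) :
    (oSi p E h k u j).app n x ∈ (G p E h k (((p : ℝ) ^ j)⁻¹ * β)).S n :=
  ev0_maps (F := (fl p E k n).scale ((p : ℝ) ^ j)⁻¹ (by positivity))
    (fun r => by
      show _ ∈ (fl p E k n).F (((p : ℝ) ^ j)⁻¹ * 0)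
      rw [mul_zero]
      exact C_mem r)
    ⟨fun i l => (mem_scale _).2 (by
        rw [Dop_si_pow, Dop_nat, ← div_eq_inv_mul]
        exact Fil.WS_si_pow (nat_mul_mem u (pt_uv.D i l)) j),
      fun i i' l => (mem_scale _).2 (by
        rw [← map_sub, ← mul_sub, ← div_eq_inv_mul]
        exact Fil.WS_si_pow (nat_mul_mem u (pt_uv.df i i' l)) j)⟩ β x hx

theorem oSg_oSi (j n : ℕ) (x : CR p E k n) : (oSg p E h k j).app n ((oSi p E h k 1 j).app n x) = x := by
  refine (map_ev0 (ev0 h k fun i l => (sg p _ ^ j) (uv p h k n i l)) _ x).trans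
    (Eq.trans ?_ (DFunLike.congr_fun (ev0_uv (h := h)) x))
  refine congrArg (fun a => ev0 h k a x) (funext₂ fun i l => ?_)
  rw [wm_si_pow, Nat.cast_one, one_mul, wm_ev0, si_sg_pow]

theorem d0 (A : Cs.Cos.{0} k) (x : A.X 0) : A.d 0 x = A.map (Fin.succAbove 0) x - A.map (Fin.succAbove 1) x := by
  have : A.d 0 = ∑ i : Fin 2, ((-1 : k) ^ (i : ℕ)) • A.map (Fin.succAbove i) := rfl
  simp [this, Fin.sum_univ_two, sub_eq_add_neg]

/-- reduced cocycles of degree zero vanish -/
theorem h0 (x : CR p E k 0) (hd : (bt p E h k).cos.d 0 x = 0) (he : (law p E h k).ep 0 x = 0) : x = 0 := by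
  rw [d0, sub_eq_zero] at hd
  have h1 := (map_ev0 _ _ x).symm.trans
    ((congrArg (ev0 h k (n := 1) ![uv p h k 0 0, 0]) hd).trans (map_ev0 _ _ x))
  simp only [wm_ev0] at h1
  have e0 : (fun (i : Fin 1) l => (![uv p h k 0 0, 0] : Fin 2 → E → _) (Fin.succAbove 0 i) l) = 0 :=
    funext₂ fun i l => by rw [Subsingleton.elim i 0]; rfl
  have e1 : (fun (i : Fin 1) l => (![uv p h k 0 0, 0] : Fin 2 → E → _) (Fin.succAbove 1 i) l) =
      uv p h k 0 := funext₂ fun i l => by rw [Subsingleton.elim i 0]; rfl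
  rw [e0, e1, ev0_uv, ev0_zero] at h1
  have he' : ev0 h k (0 : Fin 1 → E → WittVector p k) x = 0 := he
  simpa [he'] using h1.symm

theorem pt_mix {K : Type*} [CommRing K] [Pf p K] {F : Fil p K} {n : ℕ} {a : Fin (n + 1) → E → WittVector p K}
    (ha : Pt h F a) (u r : ℕ) (χ : Fin (n + 1) → Bool) :
    Pt h F fun i l => bif χ i then (si p K ^ (h * r)) (u * a i l) else (p ^ r : ℕ) * (u * a i l) := by
  have hD : ∀ i l, Dop p K h (u * a i l) ∈ F.WL 1 := fun i l => by
    rw [Dop_nat]; exact nat_mul_mem u (ha.D i l)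
  have hf : ∀ i j l, (u : WittVector p K) * a i l - u * a j l ∈ F.WL 1 := fun i j l => by
    rw [← mul_sub]; exact nat_mul_mem u (ha.df i j l)
  have hp' : ∀ i j l, ((p ^ r : ℕ) : WittVector p K) * (u * a i l) - (p ^ r : ℕ) * (u * a j l) ∈ F.WL 1 :=
    fun i j l => by rw [← mul_sub]; exact nat_mul_mem _ (hf i j l)
  refine ⟨fun i l => ?_, fun i j l => ?_⟩
  · cases χ i
    · rw [cond_false, Dop_nat]; exact nat_mul_mem _ (hD i l)
    · rw [cond_true, Dop_si_pow]; exact si_pow_mem zero_le_one (hD i l) _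
  · cases χ i <;> cases χ j <;> simp only [cond_true, cond_false]
    · exact hp' i j l
    · simpa using sub_mem (hp' i j l) (geom_mem (hD j l) r)
    · simpa using add_mem (geom_mem (hD i l) r) (hp' i j l)
    · rw [← map_sub]; exact si_pow_mem zero_le_one (hf i j l) _

theorem nat_mix (u r : ℕ) (c : Bool) {K L : Type*} [CommRing K] [Pf p K] [CommRing L] [Pf p L] (f : K →+* L)
    (x : WittVector p K) :
    wm p f (bif c then (si p K ^ (h * r)) (u * x) else (p ^ r : ℕ) * (u * x)) =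
      bif c then (si p L ^ (h * r)) (u * wm p f x) else (p ^ r : ℕ) * (u * wm p f x) := by
  cases c
  · simp only [cond_false, map_mul, map_natCast]
  · simp only [cond_true, wm_si_pow, map_mul, map_natCast]

theorem core {r j : ℕ} (hj : j < p ^ r) {β : ℝ} (hβ : 0 ≤ β) {x : CR p E k j} (hx : x ∈ (G p E h k β).S j)
    (hd : (bt p E h k).cos.d j x = 0) :
    x - algebraMap k (CR p E k j) ((law p E h k).ep j x) ∈
      (G p E h k (p ^ (h * r) * (p ^ r * β))).bd j := by
  have : CharP k p := Ch.charP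
  have h1 := Cs.All.conv k p (bt p E h k) (law p E h k) (fun N => G p E h k (N * β))
    (fun N n => Fil.le (fl p E k n).one_mem (by positivity))
    (fun N n x y hx hy => Fil.mul_le hx hy (by push_cast; linarith)) (stab _) (fun x _ => h0 x) r j hj x
    (Fil.le hx (by simp)) hd
  have h2 := htp (h := h) (fun c n x => bif c then (si p _ ^ (h * r)) ((1 : ℕ) * x) else (p ^ r : ℕ) * ((1 : ℕ) * x))
    (fun c _ _ f x => nat_mix 1 r c _ x) (fun n χ => pt_mix pt_uv 1 r χ) β j x hx hd
  have h3 : (oSi p E h k 1 (h * r)).app j x - algebraMap k (CR p E k j) ((law p E h k).ep j x) ∈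
      (G p E h k (p ^ r * β)).bd j := by
    have h4 := add_mem (bd_mono (le_mul_of_one_le_left hβ
      (one_le_pow₀ (n := r) (by linarith [two_le_p (p := p)] : (1 : ℝ) ≤ p))) h2) (bd_mono (by simp) h1)
    rw [law_pw] at h4
    simp only [cond_true, cond_false, Nat.cast_one, one_mul, sub_add_sub_cancel] at h4
    simpa only [oSi, opr, Nat.cast_one, one_mul, AlgHom.toLinearMap_apply] using h4
  have h5 := bd_map (oSg p E h k (h * r)) (oSg_mem (h * r) _) h3
  rw [map_sub, oSg_oSi] at h5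
  have e : ∀ c, (oSg p E h k (h * r)).app j (algebraMap k (CR p E k j) c) = algebraMap k (CR p E k j) c :=
    fun c => (ev0 h k fun i l => (sg p _ ^ (h * r)) (uv p h k j i l)).commutes c
  rwa [e] at h5

variable (p E h k) in
/-- the augmentation -/
def eps : Cs.Hom (bt p E h k).cos (Cs.const k k) :=
  ⟨fun n => ((law p E h k).ep n).toLinearMap, fun f x => (law p E h k).ep_nat f x⟩

variable (p E h k) in
/-- the unit -/
def eta : Cs.Hom (Cs.const k k) (bt p E h k).cos :=
  ⟨fun n => Algebra.linearMap k (CR p E k n), fun f c => (((bt p E h k).map f).commutes c).symm⟩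

theorem one_le_rho (r : ℕ) : (1 : ℝ) ≤ p ^ (h * r) * p ^ r :=
  have h1 : (1 : ℝ) ≤ p := by linarith [two_le_p (p := p)]
  one_le_mul_of_one_le_of_one_le (one_le_pow₀ h1) (one_le_pow₀ h1)

theorem rat (n : ℕ) : ∃ ρ : ℝ, 1 ≤ ρ ∧ ∀ β : ℝ, 0 ≤ β →
    Cs.NullOn (Cs.Hom.id _) (G p E h k β) (G p E h k (ρ * β)) (n + 1) := by
  refine ⟨_, one_le_rho (p := p) (h := h) (n + 1), fun β hβ x hx hd => ?_⟩
  have h1 := core (Nat.lt_pow_self (n := n + 1) one_lt_p) hβ hx hd
  rw [← mul_assoc] at h1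
  obtain ⟨c, hc⟩ := (Cs.All.constpath k).1 k n _ ((eps p E h k).map_cocycle hd)
  have h2 : algebraMap k (CR p E k (n + 1)) ((law p E h k).ep _ x) ∈
      (G p E h k (p ^ (h * (n + 1)) * p ^ (n + 1) * β)).bd (n + 1) :=
    ⟨algebraMap k (CR p E k n) c, Fil.le (C_mem c) (by positivity),
      ((eta p E h k).map_d n c).symm.trans (congrArg _ hc)⟩
  have h3 := add_mem h1 h2
  rwa [sub_add_cancel] at h3

theorem red {r j : ℕ} (hj : j < p ^ r) {β : ℝ} (hβ : 0 ≤ β) :
    Cs.NullOn (Cs.Hom.id _) ((G p E h k β).inf (eps p E h k).ker)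
      ((G p E h k (p ^ (h * r) * p ^ r * β)).inf (eps p E h k).ker) j := fun x hx hd => by
  have h1 := core hj hβ hx.1 hd
  have he : (law p E h k).ep j x = 0 := hx.2
  rw [← mul_assoc, he, map_zero, sub_zero] at h1
  cases j with
  | zero => exact h1
  | succ j =>
    obtain ⟨y, hy, rfl⟩ := h1
    refine ⟨y - algebraMap k (CR p E k j) ((law p E h k).ep j y),
      ⟨sub_mem hy (Fil.le (C_mem _) (by positivity)), ?_⟩, ?_⟩
    · show (law p E h k).ep j (y - _) = 0
      rw [map_sub, AlgHom.commutes]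
      exact sub_self _
    · have h2 := ((eta p E h k).comp (eps p E h k)).map_d j y
      have h3 : (bt p E h k).cos.d j (algebraMap k (CR p E k j) ((law p E h k).ep j y)) = 0 :=
        h2.symm.trans ((congrArg (algebraMap k (CR p E k (j + 1))) he).trans (map_zero _))
      rw [map_sub, h3, sub_zero]
      rfl

theorem hc (n : ℕ) : ∃ ρ : ℝ, 0 ≤ ρ ∧ ∀ e s : ℕ, 1 ≤ e → s % p ^ e = 1 → ∀ β : ℝ, 0 ≤ β →
    Cs.NullOn (scl p E h k s - Cs.Hom.id _) (G p E h k β) (G p E h k (β + ρ * β / (p ^ h : ℕ) ^ e)) n := by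
  obtain ⟨ρ, hρ, hred⟩ : ∃ ρ : ℝ, 1 ≤ ρ ∧ ∀ j ≤ n, ∀ β : ℝ, 0 ≤ β →
      Cs.NullOn (Cs.Hom.id _) ((G p E h k β).inf (eps p E h k).ker)
        ((G p E h k (ρ * β)).inf (eps p E h k).ker) j :=
    ⟨_, one_le_rho (p := p) (h := h) n, fun j hj β hβ => red (hj.trans_lt (Nat.lt_pow_self one_lt_p)) hβ⟩
  refine ⟨ρ ^ (n + 1), by positivity, fun e s _ hs β hβ x hx hd => ?_⟩
  obtain ⟨u, hu⟩ : ∃ u, s = 1 + p ^ e * u := ⟨s / p ^ e, by rw [← hs, Nat.mod_add_div]⟩
  have h1 := Cs.All.convhc k (bt p E h k) (law p E h k) (G p E h k β)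
    (G p E h k (β + ρ ^ (n + 1) * β / (p ^ h : ℕ) ^ e))
    (fun i => (G p E h k (ρ ^ i * β)).inf (eps p E h k).ker)
    (fun n => ev0 h k fun i l => (si p _ ^ (h * e)) (u * uv p h k n i l)) n
    (fun _ _ f x => (oSi p E h k u (h * e)).nat f x) (stab β)
    (fun n x hx => ⟨sub_mem (Fil.le hx (by simp)) (Fil.le (C_mem _) (by positivity)), by
      show (law p E h k).ep n (x - _) = 0
      rw [map_sub, AlgHom.commutes]
      exact sub_self _⟩)
    (fun i n x hx => ⟨Fil.le hx.1 (mul_le_mul_of_nonneg_right (pow_le_pow_right₀ hρ i.le_succ) hβ), hx.2⟩)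
    (fun i _ j hj => by
      rw [pow_succ', mul_assoc]
      exact hred j hj _ (by positivity))
    (fun n x y hx hy => Fil.mul_le hx (oSi_mem u (h * e) _ n y hy.1) (by
      push_cast
      rw [← pow_mul, div_eq_inv_mul])) x hx hd
  have h2 := htp (h := h) (fun c n (x : WittVector p (CR p E k n)) => x +
      bif c then (si p _ ^ (h * e)) ((u : WittVector p (CR p E k n)) * x) else
        ((p ^ e : ℕ) : WittVector p (CR p E k n)) * ((u : WittVector p (CR p E k n)) * x))
    (fun c _ _ f x => by rw [map_add, nat_mix]) (fun n χ => pt_uv.add (pt_mix pt_uv _ e χ)) β n x hx hd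
  rw [← ev0_uv (h := h), law_add] at h1
  have h3 := sub_mem h1 (bd_mono (le_add_of_nonneg_right (by positivity)) h2)
  have e1 : (fun i l => (s : WittVector p _) * uv p h k n i l) = fun i l => uv p h k n i l +
      (p ^ e : ℕ) * (u * uv (E := E) p h k n i l) := funext₂ fun i l => by
    rw [hu, Nat.cast_add, Nat.cast_mul, Nat.cast_one]
    ring
  simp only [cond_true, cond_false, sub_sub_sub_cancel_left] at h3
  rw [← e1] at h3
  exact h3

variable (p E h k) in
theorem btH : BtH p E h k := ⟨rat, hc⟩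

end P261.Bt
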