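import Vale.Agent.P261Z.L.Spec

/-!
# P261Z, block H: the statement for the full (not reduced) complex of the colour `A`
-/

noncomputable section

namespace P261

variable (p : ℕ) [hp : Fact p.Prime] (k : Type) [Field k] (E : Type) [Fintype E] [DecidableEq E] (h : ℕ)
  (B : Type) [CommRing B] [Algebra k B]

/-- ratio in positive degrees and small shift in all degrees for the mode `on` -/
structure OnH : Prop where
  rat : ∀ n, ∃ ρ : ℝ, 1 ≤ ρ ∧ ∀ β : ℝ, 0 ≤ β →
    (LF1 (PF.base p k B) (sA p k E h) .on).Nul (n + 1) β (ρ * β)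
  hc : ∀ n, ∃ ρ : ℝ, 0 ≤ ρ ∧ ∀ e s : ℕ, 1 ≤ e → s % p ^ e = 1 → ∀ β : ℝ, 0 ≤ β →
    Cs.NullOn ((LF1 (PF.base p k B) (sA p k E h) .on).act s - Cs.Hom.id _)
      ((LF1 (PF.base p k B) (sA p k E h) .on).F β)
      ((LF1 (PF.base p k B) (sA p k E h) .on).F (β + ρ * β / (p ^ h : ℕ) ^ e)) n

/-- from the mode `on` to the mode `red` -/
def HRED : Prop := OnH p k E h B → (LF1 (PF.base p k B) (sA p k E h) .red).Good (p ^ h)

end P261
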