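import Vale.Agent.P261Z.W.Fil

/-!
# P261Z, block H: perfect polynomial rings with their weight filtrations
-/

open AddMonoidAlgebra

noncomputable section

namespace P261

variable {p : ℕ} [hp : Fact p.Prime]

section general

variable {B : Type*} [CommRing B] {M : Type*} [AddCommMonoid M]

instance [Ch p B] : Ch p (AddMonoidAlgebra B M) := Ch.of_hom (singleZeroRingHom (R := B) (M := M))

theorem pow_p_eq [Pf p B] (e : M ≃+ M) (he : ∀ m, e m = p • m) (x : AddMonoidAlgebra B M) :
    x ^ p = mapDomainRingEquiv B e (mapRingEquiv M (frE p B) x) := by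
  induction x using induction_linear with
  | zero => simp [hp.out.ne_zero]
  | add x y hx hy => rw [add_pow_p, hx, hy, map_add, map_add]
  | single m r => rw [single_pow, mapRingEquiv_single, mapDomainRingEquiv_single, he]; rfl

/-- monoid algebras of uniquely divisible monoids are perfect -/
theorem Pf.monoidAlgebra [Pf p B] (e : M ≃+ M) (he : ∀ m, e m = p • m) :
    Pf p (AddMonoidAlgebra B M) :=
  { bij := by
      rw [funext (pow_p_eq e he)]
      exact (mapDomainRingEquiv B e).bijective.comp (mapRingEquiv M (frE p B)).bijective }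

theorem coeff_pow_p [Pf p B] (e : M ≃+ M) (he : ∀ m, e m = p • m) (x : AddMonoidAlgebra B M) (m : M) :
    (x ^ p).coeff (p • m) = x.coeff m ^ p := by
  rw [pow_p_eq e he, ← he]
  simp
  rfl

variable (B) in
/-- the filtration by the weights of the monomials -/
def wFil [Pf p B] (e : M ≃+ M) (he : ∀ m, e m = p • m) (wt : M →+ ℝ) :
    Fil p (AddMonoidAlgebra B M) where
  F t :=
    { carrier := {x | ∀ m, x.coeff m ≠ 0 → wt m ≤ t}
      add_mem' := fun {x y} hx hy m hm => by
        by_contra h
        have h1 : x.coeff m = 0 := by_contra fun h1 => h (hx m h1)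
        have h2 : y.coeff m = 0 := by_contra fun h2 => h (hy m h2)
        simp [h1, h2] at hm
      zero_mem' := fun m hm => by simp at hm
      neg_mem' := fun {x} hx m hm => hx m (by simpa using hm) }
  mono := fun _ _ h _ hx m hm => (hx m hm).trans h
  one_mem := fun m hm => by
    classical
    rw [one_def, coeff_single, Finsupp.single_apply] at hm
    split_ifs at hm with h
    · rw [← h, map_zero]
    · exact absurd rfl hm
  mul_mem := fun {s t x y} hx hy m hm => by
    classical
    obtain ⟨a, ha, b, hb, rfl⟩ :=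
      Finset.mem_add.1 (support_coeff_mul_subset x y (Finsupp.mem_support_iff.2 hm))
    rw [map_add]
    exact add_le_add (hx a (Finsupp.mem_support_iff.1 ha)) (hy b (Finsupp.mem_support_iff.1 hb))
  root := fun {t x} h m hm => by
    have h1 := h (p • m) (by rw [coeff_pow_p e he]; exact fun h0 => hm (eq_zero_of_pow h0))
    rw [map_nsmul, nsmul_eq_mul] at h1
    exact le_of_mul_le_mul_left h1 p_pos'

variable [Pf p B] {e : M ≃+ M} {he : ∀ m, e m = p • m} {wt : M →+ ℝ}

theorem mem_wFil {t : ℝ} {x : AddMonoidAlgebra B M} :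
    x ∈ (wFil B e he wt).F t ↔ ∀ m, x.coeff m ≠ 0 → wt m ≤ t := Iff.rfl

theorem wFil_closed : (wFil B e he wt).Closed := fun _ _ h m hm =>
  le_of_forall_pos_le_add fun ε hε => h ε hε m hm

theorem single_mem_wFil {t : ℝ} {m : M} (r : B) (h : wt m ≤ t) :
    single m r ∈ (wFil B e he wt).F t := fun m' hm => by
  classical
  rw [coeff_single, Finsupp.single_apply] at hm
  split_ifs at hm with h'
  · exact h' ▸ h
  · exact absurd rfl hm

/-- induction over a step of the filtration -/
theorem wFil_induction {t : ℝ} {P : AddMonoidAlgebra B M → Prop} (h0 : P 0)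
    (ha : ∀ x y, P x → P y → P (x + y)) (hs : ∀ m r, wt m ≤ t → P (single m r))
    {x : AddMonoidAlgebra B M} (hx : x ∈ (wFil B e he wt).F t) : P x := by
  rw [← sum_coeff_single x, Finsupp.sum]
  exact Finset.sum_induction _ P ha h0 fun m hm => hs m _ (hx m (Finsupp.mem_support_iff.1 hm))

theorem wFil_exh : (wFil B e he wt).Exh := fun x => by
  obtain ⟨t, ht⟩ := (x.coeff.support.image wt).bddAbove
  exact ⟨t, fun m hm => ht (Finset.mem_coe.2 (Finset.mem_image_of_mem _ (Finsupp.mem_support_iff.2 hm)))⟩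

end general

variable (p) in
/-- the exponents -/
def Lam : AddSubmonoid ℝ where
  carrier := {a | ∃ m n : ℕ, (p : ℝ) ^ m * a = n}
  zero_mem' := ⟨0, 0, by simp⟩
  add_mem' := fun {a b} ⟨m, n, h⟩ ⟨m', n', h'⟩ => ⟨m + m', p ^ m' * n + p ^ m * n', by
    push_cast; rw [← h, ← h']; ring⟩

theorem Lam.nonneg (a : Lam p) : (0 : ℝ) ≤ a := by
  obtain ⟨m, n, h⟩ := a.2
  exact le_of_mul_le_mul_left (by rw [h, mul_zero]; positivity) (pow_pos (p_pos' (p := p)) m)

/-- the exponent one -/
def Lam.one : Lam p := ⟨1, 0, 1, by simp⟩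

variable (p) in
/-- multiplication by `p` -/
def Lam.mulP : Lam p ≃+ Lam p where
  toFun a := p • a
  invFun a := ⟨a / p, by
    obtain ⟨m, n, h⟩ := a.2
    exact ⟨m + 1, n, by rw [← h, pow_succ, mul_assoc, mul_div_cancel₀ _ (p_pos' (p := p)).ne']⟩⟩
  left_inv a := Subtype.ext (by simp [(p_pos' (p := p)).ne'])
  right_inv a := Subtype.ext (by simp [mul_div_cancel₀ _ (p_pos' (p := p)).ne'])
  map_add' a b := nsmul_add a b p

section ppow

variable {T T' : Type*} [CommRing T] [Pf p T] [CommRing T'] [Pf p T']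

/-- fractional powers -/
def ppow (x : T) (a : Lam p) : T := (rt p T ^ a.2.choose) (x ^ a.2.choose_spec.choose)

theorem ppow_spec (x : T) (a : Lam p) {m n : ℕ} (h : (p : ℝ) ^ m * a = n) :
    ppow x a ^ p ^ m = x ^ n := by
  have h0 := a.2.choose_spec.choose_spec
  refine pow_pp_inj a.2.choose ?_
  rw [← pow_mul, mul_comm, pow_mul, ppow, rt_pow_pp, ← pow_mul, ← pow_mul]
  congr 1
  have : ((a.2.choose_spec.choose * p ^ m : ℕ) : ℝ) = (n * p ^ a.2.choose : ℕ) := by
    push_cast; rw [← h0, ← h]; ring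
  exact_mod_cast this

theorem ppow_zero (x : T) : ppow x (0 : Lam p) = 1 := by
  simpa using ppow_spec x 0 (m := 0) (n := 0) (by simp)

theorem ppow_one (x : T) : ppow x (Lam.one : Lam p) = x := by
  simpa using ppow_spec x Lam.one (m := 0) (n := 1) (by simp [Lam.one])

theorem ppow_add (x : T) (a b : Lam p) : ppow x (a + b) = ppow x a * ppow x b := by
  obtain ⟨m, n, h⟩ := a.2
  obtain ⟨m', n', h'⟩ := b.2
  refine pow_pp_inj (m + m') ?_
  rw [ppow_spec x (a + b) (n := p ^ m' * n + p ^ m * n') (by push_cast; rw [← h, ← h']; ring), mul_pow,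
    ppow_spec x a (n := p ^ m' * n) (by push_cast; rw [← h]; ring),
    ppow_spec x b (n := p ^ m * n') (by push_cast; rw [← h']; ring), pow_add]

theorem ppow_mem {F : Fil p T} {x : T} {t : ℝ} (hx : x ∈ F.F t) (a : Lam p) :
    ppow x a ∈ F.F (a * t) := by
  obtain ⟨m, n, h⟩ := a.2
  refine Fil.root_pow m ?_
  rw [ppow_spec x a h, ← mul_assoc, h]
  exact Fil.pow_mem hx n

end ppow

variable (p) in
/-- monomials -/
abbrev Mon (σ : Type*) := σ →₀ Lam p

variable (p) in
/-- multiplication by `p` on monomials -/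
def Mon.mulP (σ : Type*) : Mon p σ ≃+ Mon p σ := Finsupp.mapRange.addEquiv (Lam.mulP p)

theorem Mon.mulP_apply {σ : Type*} (m : Mon p σ) : Mon.mulP p σ m = p • m := by
  ext i; rfl

/-- the weight of a monomial -/
def Mon.wt {σ : Type*} (τ : σ → ℝ) : Mon p σ →+ ℝ :=
  Finsupp.liftAddHom fun i => (AddMonoidHom.mulRight (τ i)).comp (Lam p).subtype

omit hp in
theorem Mon.wt_single {σ : Type*} (τ : σ → ℝ) (i : σ) (a : Lam p) :
    Mon.wt τ (Finsupp.single i a) = a * τ i := by simp [Mon.wt]

variable (p) in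
/-- perfect polynomial rings -/
abbrev PP (B : Type*) [CommRing B] (σ : Type*) := AddMonoidAlgebra B (Mon p σ)

namespace PP

variable {B : Type*} [CommRing B] {σ : Type*}

instance [Pf p B] : Pf p (PP p B σ) := Pf.monoidAlgebra (Mon.mulP p σ) Mon.mulP_apply

/-- the variables -/
def X (i : σ) : PP p B σ := single (Finsupp.single i Lam.one) 1

variable (B) in
/-- the filtration in which the variable `i` has weight `τ i` -/
def fil [Pf p B] (τ : σ → ℝ) : Fil p (PP p B σ) := wFil B (Mon.mulP p σ) Mon.mulP_apply (Mon.wt τ)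

theorem fil_closed [Pf p B] (τ : σ → ℝ) : (fil (p := p) B τ).Closed := wFil_closed

theorem X_mem [Pf p B] (τ : σ → ℝ) (i : σ) : (X i : PP p B σ) ∈ (fil B τ).F (τ i) :=
  single_mem_wFil _ (by simp [Mon.wt_single, Lam.one])

theorem C_mem [Pf p B] (τ : σ → ℝ) (b : B) : (single 0 b : PP p B σ) ∈ (fil B τ).F 0 :=
  single_mem_wFil _ (by simp)

variable {T : Type*} [CommRing T] [Pf p T]

/-- the value of a monomial -/
def mon (a : σ → T) : Multiplicative (Mon p σ) →* T where
  toFun m := m.toAdd.prod fun i e => ppow (a i) e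
  map_one' := Finsupp.prod_zero_index
  map_mul' _ _ := Finsupp.prod_add_index' (fun _ => ppow_zero _) fun _ _ _ => ppow_add _ _ _

theorem mon_mem {F : Fil p T} {a : σ → T} {τ : σ → ℝ} (h : ∀ i, a i ∈ F.F (τ i)) (m : Mon p σ) :
    mon a (.ofAdd m) ∈ F.F (Mon.wt τ m) :=
  Fil.prod_mem fun i _ => ppow_mem (h i) _

variable {k : Type*} [CommRing k] [Algebra k B] [Algebra k T]

/-- the universal property -/
def lift (b : B →ₐ[k] T) (a : σ → T) : PP p B σ →ₐ[k] T :=
  liftNCAlgHom b (mon a) fun _ _ => .all _ _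

theorem lift_single (b : B →ₐ[k] T) (a : σ → T) (m : Mon p σ) (r : B) :
    lift b a (single m r) = b r * mon a (.ofAdd m) :=
  liftNCRingHom_single (b : B →+* T) (mon a) (fun _ _ => .all _ _) m r

@[simp] theorem lift_X (b : B →ₐ[k] T) (a : σ → T) (i : σ) : lift b a (X i : PP p B σ) = a i := by
  rw [X, lift_single, map_one, one_mul]
  exact (Finsupp.prod_single_index (ppow_zero _)).trans (ppow_one _)

@[simp] theorem lift_C (b : B →ₐ[k] T) (a : σ → T) (r : B) :
    lift b a (single 0 r : PP p B σ) = b r := by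
  rw [lift_single, ofAdd_zero, map_one, mul_one]

theorem lift_maps [Pf p B] {F : Fil p T} {b : B →ₐ[k] T} {a : σ → T} {τ : σ → ℝ} (hb : ∀ r, b r ∈ F.F 0)
    (h : ∀ i, a i ∈ F.F (τ i)) {t : ℝ} {x : PP p B σ} (hx : x ∈ (fil B τ).F t) :
    lift b a x ∈ F.F t := by
  refine wFil_induction (P := fun x => lift b a x ∈ F.F t) (by rw [map_zero]; exact zero_mem _)
    (fun x y hx hy => by rw [map_add]; exact add_mem hx hy) (fun m r hm => ?_) hx
  rw [lift_single]
  exact Fil.mul_le (hb r) (mon_mem h m) (by linarith)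

/-- uniqueness -/
theorem ringHom_ext {f g : PP p B σ →+* T} (hb : ∀ r, f (single 0 r) = g (single 0 r))
    (h : ∀ i, f (X i) = g (X i)) : f = g := by
  refine AddMonoidAlgebra.ringHom_ext hb fun m => ?_
  induction m using Finsupp.induction_linear with
  | zero => exact hb 1
  | add m m' hm hm' =>
    rw [← one_mul (1 : B), ← single_mul_single, map_mul, map_mul, hm, hm']
  | single i e =>
    obtain ⟨m, n, he⟩ := e.2
    have h1 : (single (Finsupp.single i e) 1 : PP p B σ) ^ p ^ m = X i ^ n := by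
      rw [X, single_pow, single_pow, one_pow, one_pow, Finsupp.smul_single, Finsupp.smul_single]
      congr 2
      exact Subtype.ext (by simpa [Lam.one] using he)
    refine pow_pp_inj m ?_
    rw [← map_pow, ← map_pow, h1, map_pow, map_pow, h]

theorem algHom_ext {f g : PP p B σ →ₐ[k] T} (hb : ∀ r, f (single 0 r) = g (single 0 r))
    (h : ∀ i, f (X i) = g (X i)) : f = g :=
  AlgHom.coe_ringHom_injective (ringHom_ext hb h)

theorem algHom_ext' [Algebra B T] {f g : PP p B σ →ₐ[B] T} (h : ∀ i, f (X i) = g (X i)) : f = g :=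
  algHom_ext (fun r => (f.commutes r).trans (g.commutes r).symm) h

end PP

end P261
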