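import Vale.Agent.P261Z.H.On
import Vale.Agent.P261Z.Cs.All

/-!
# P261Z, block H: from the full complex to the reduced complex
-/

noncomputable section

namespace P261

namespace RedAux

open Cs

universe u

section chase

variable {p : ℕ} {k : Type} [Field k] {K M Q : FA.{u} p k}

theorem bd_mono (A : FA.{u} p k) {β β' : ℝ} (h : β ≤ β') {n : ℕ} {x : A.C.X n}
    (hx : x ∈ (A.F β).bd n) : x ∈ (A.F β').bd n := by
  cases n with
  | zero => exact hx
  | succ n =>
    obtain ⟨y, hy, e⟩ := hx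
    exact ⟨y, A.mono h n hy, e⟩

/-- lifting a boundary -/
theorem lift (s : FA.SE K M Q) {β : ℝ} {n : ℕ} {g : K.C.X (n + 1)} {u : M.C.X n}
    (hu : u ∈ (M.F β).S n) (e : M.C.d n u = s.i.f.app (n + 1) g)
    (h : s.r.f.app n u ∈ (Q.F β).bd n) : g ∈ (K.F β).bd (n + 1) := by
  have key : ∀ u ∈ (M.F β).S n, M.C.d n u = s.i.f.app (n + 1) g → s.r.f.app n u = 0 →
      g ∈ (K.F β).bd (n + 1) := by
    intro u hu e h
    obtain ⟨y, hy, rfl⟩ := s.exact β n u hu h
    exact ⟨y, hy, s.inj _ ((s.i.f.map_d n y).trans e)⟩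
  cases n with
  | zero => exact key u hu e h
  | succ n =>
    obtain ⟨v, hv, e'⟩ := h
    obtain ⟨x, hx, rfl⟩ := s.surj β n v hv
    refine key (u - M.C.d n x) (sub_mem hu ?_) ?_ ?_
    · exact Submodule.sum_mem _ (f := fun i : Fin (n + 2) =>
        ((-1 : k) ^ (i : ℕ)) • M.C.map (Fin.succAbove i) x)
        (fun i _ => Submodule.smul_mem _ _ ((M.F β).stab _ hx)) |> fun h => by
          simpa only [Cos.d, LinearMap.sum_apply, LinearMap.smul_apply] using h
    · rw [map_sub, e, All.dd, sub_zero]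
    · rw [map_sub, s.r.f.map_d, e', sub_self]

theorem good (hp : 1 < p) (s : FA.SE K M Q) (q : ℕ)
    (cone : ∀ β n, ∀ g ∈ (M.F β).S (n + 1), M.C.d (n + 1) g = 0 →
      ∃ u ∈ (M.F β).S n, M.C.d n u = g)
    (k0 : ∀ g, K.C.d 0 g = 0 → g = 0)
    (q0 : ∀ β, ∀ u ∈ (M.F β).S 0, Q.C.d 0 (s.r.f.app 0 u) = 0 →
      ∃ c ∈ (M.F β).S 0, M.C.d 0 c = 0 ∧ s.r.f.app 0 c = s.r.f.app 0 u)
    (rat : ∀ n, ∃ ρ : ℝ, 1 ≤ ρ ∧ ∀ β : ℝ, 0 ≤ β → Q.Nul (n + 1) β (ρ * β))
    (hc : ∀ n, ∃ ρ : ℝ, 0 ≤ ρ ∧ ∀ e s : ℕ, 1 ≤ e → s % p ^ e = 1 → ∀ β : ℝ, 0 ≤ β →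
      NullOn (Q.act s - Hom.id _) (Q.F β) (Q.F (β + ρ * β / q ^ e)) n) : K.Good q := by
  have pre : ∀ β n, ∀ g ∈ (K.F β).S (n + 1), K.C.d (n + 1) g = 0 → ∃ u ∈ (M.F β).S n,
      M.C.d n u = s.i.f.app (n + 1) g ∧ Q.C.d n (s.r.f.app n u) = 0 := by
    intro β n g hg hd
    obtain ⟨u, hu, e⟩ := cone β n _ (s.i.mem β _ g hg) (s.i.f.map_cocycle hd)
    exact ⟨u, hu, e, by rw [← s.r.f.map_d, e, s.zero]⟩
  intro n
  rcases n with _ | n
  · refine ⟨⟨1, le_rfl, fun β ε _ _ g _ hd => ?_⟩, 0, 0, le_rfl, fun e t _ _ β ε _ _ g _ hd => ?_⟩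
    · rw [k0 g hd, map_zero]
      exact zero_mem _
    · rw [k0 g hd, map_zero]
      exact zero_mem _
  refine ⟨?_, ?_⟩
  · rcases n with _ | n
    · refine ⟨1, le_rfl, fun β ε _ hε g hg hd => ?_⟩
      obtain ⟨u, hu, e, h1⟩ := pre β 0 g hg hd
      obtain ⟨c, c1, c2, c3⟩ := q0 β u hu h1
      refine bd_mono K (by linarith) (lift s (sub_mem hu c1) ?_ ?_)
      · rw [map_sub, c2, sub_zero, e]
        rfl
      · rw [map_sub, c3, sub_self]
        exact zero_mem _
    · obtain ⟨ρ, h1, h2⟩ := rat n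
      refine ⟨ρ, h1, fun β ε hβ hε g hg hd => ?_⟩
      obtain ⟨u, hu, e, h3⟩ := pre β _ g hg hd
      exact bd_mono K (by linarith) (lift s (M.mono (le_mul_of_one_le_left hβ h1) _ hu) e
        (h2 β hβ _ (s.r.mem β _ u hu) h3))
  · obtain ⟨ρ, h1, h2⟩ := hc n
    refine ⟨ρ, 0, h1, fun e t he ht β ε hβ hε g hg hd => ?_⟩
    obtain ⟨u, hu, e1, h3⟩ := pre β _ g hg hd
    have h4 : t % p = 1 := by
      rw [← Nat.mod_mod_of_dvd t (dvd_pow_self p (by omega : e ≠ 0)), ht, Nat.mod_eq_of_lt hp]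
    have h5 : 0 ≤ ρ * β / (q : ℝ) ^ e := by positivity
    rw [pow_zero, pow_one]
    refine bd_mono K (by linarith) (lift s (β := β + ρ * β / (q : ℝ) ^ e)
      (u := (M.act t).app n u - u)
      (M.mono (by linarith) _ (sub_mem (M.act_F t β n u hu) hu)) ?_ ?_)
    · rw [map_sub, ← (M.act t).map_d, e1, ← s.i.act t h4, ← map_sub]
      rfl
    · rw [map_sub, s.r.act t h4]
      exact h2 e t he ht β hβ _ (s.r.mem β _ u hu) h3

end chase

variable {p : ℕ} [Fact p.Prime] {k : Type} [Field k] {S : Sys p k} {c : Col S.V}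

variable (S c) in
/-- configurations with one direction -/
abbrev Cf (m : Mode) (n : ℕ) (T : FP p k) := S.Conf (fun _ : Unit => c) (fun _ => m) n T

variable {m m' : Mode} {n : ℕ} {T : FP p k}

/-- change of the mode -/
def re (m' : Mode) (h1 : m' ≠ .on) (h2 : m' ≠ .off) (z : Cf S c m n T) : Cf S c m' n T :=
  ⟨z.x, z.w, z.col, z.ok, fun _ _ h => absurd h h1, fun _ _ h => absurd h h2⟩

/-- a filled configuration -/
def toOn (z : Cf S c m n T) (h : ∀ i, (z.w () i).isSome) : Cf S c .on n T :=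
  ⟨z.x, z.w, z.col, z.ok, fun _ i _ => h i, fun _ _ h => by cases h⟩

/-- one more vertex -/
def cons (z : Cf S c m n T) (o : Option (S.V.obj T))
    (h : ∀ v, o = some v → c.P v ∧ S.ok1 z.x v ∧ S.ok2 v v ∧
      ∀ i u, z.w () i = some u → S.ok2 v u ∧ S.ok2 u v)
    (h1 : m = .on → o.isSome) (h2 : m = .off → o = none) : Cf S c m (n + 1) T where
  x := z.x
  w _ := Fin.cons o (z.w ())
  col _ i v := Fin.cases (fun e => ⟨(h v e).1, (h v e).2.1⟩) (fun i e => z.col () i v e) i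
  ok _ i v _ j u := Fin.cases
    (Fin.cases (fun e e' => (Option.some.inj (e.symm.trans e')) ▸ (h v e).2.2.1)
      (fun j e e' => ((h v e).2.2.2 j u e').1) j)
    (fun i => Fin.cases (fun e e' => ((h u e').2.2.2 i v e).2)
      (fun j e e' => z.ok () i v () j u e e') j) i
  on _ i hm := Fin.cases (h1 hm) (fun i => z.on () i hm) i
  off _ i hm := Fin.cases (h2 hm) (fun i => z.off () i hm) i

/-- the cone point -/
def cn (z : Cf S c .opt n T) : Cf S c .opt (n + 1) T :=
  cons z none (fun _ e => by cases e) (fun e => by cases e) fun _ => rfl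

variable (S c) in
/-- change of the mode as a map of configurations -/
def cm (m m' : Mode) (h1 : m' ≠ .on) (h2 : m' ≠ .off) (h3 : m ≠ .red) :
    CMap S S (fun _ : Unit => c) (fun _ => m) (fun _ : Unit => c) (fun _ => m') where
  f := re m' h1 h2
  map _ _ := rfl
  res _ _ := rfl
  full _ := fun ⟨_, h, _⟩ => absurd h h3

theorem d_apply (g : (S.cos (fun _ : Unit => c) fun _ => m).X n) (z : Cf S c m (n + 2) T) :
    ((S.cos (fun _ : Unit => c) fun _ => m).d n g).1 T z =
      ∑ i : Fin (n + 2), ((-1 : k) ^ (i : ℕ)) • g.1 T (z.res (Fin.succAbove i)) := by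
  simp only [Cos.d, LinearMap.sum_apply, LinearMap.smul_apply, Submodule.coe_sum, Finset.sum_apply]
  rfl

theorem coc0 {g : (S.cos (fun _ : Unit => c) fun _ => m).X 0}
    (h : (S.cos (fun _ : Unit => c) fun _ => m).d 0 g = 0) (z : Cf S c m 2 T) :
    g.1 T (z.res (Fin.succAbove 0)) = g.1 T (z.res (Fin.succAbove 1)) := by
  have h1 := d_apply g z
  rw [h, Fin.sum_univ_two] at h1
  have h2 : (0 : T.K) = g.1 T (z.res (Fin.succAbove 0)) - g.1 T (z.res (Fin.succAbove 1)) := by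
    refine Eq.trans h1 ?_
    simp [sub_eq_add_neg]
  exact sub_eq_zero.1 h2.symm

variable (a : S.Act) (hs : a.Stab c)

/-- the complex of one direction -/
abbrev fa (m : Mode) : FA.{1} p k := S.fa a (fun _ : Unit => c) (fun _ => m) fun _ => hs

open Classical in
/-- the sequence of the three modes -/
def se : FA.SE (fa a hs .red) (fa a hs .opt) (fa a hs .on) where
  i := ⟨(cm S c .opt .red (by decide) (by decide) (by decide)).hom, fun _ _ _ hx T _ => hx T _,
    fun _ _ _ _ => rfl⟩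
  r := ⟨(cm S c .on .opt (by decide) (by decide) (by decide)).hom, fun _ _ _ hx T _ => hx T _,
    fun _ _ _ _ => rfl⟩
  inj n x y e := Subtype.ext (funext fun T => funext fun z =>
    congrFun (congrFun (congrArg Subtype.val e) T) (re .opt (by decide) (by decide) z))
  surj β n y hy := by
    refine ⟨⟨fun T z => if h : ∀ i, (z.w () i).isSome then y.1 T (toOn z h) else 0,
      fun T T' φ z => ?_, fun _ _ ⟨_, h, _⟩ => by cases h⟩, fun T z => ?_, ?_⟩
    · have e : (∀ i, ((z.map φ).w () i).isSome) ↔ ∀ i, (z.w () i).isSome :=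
        forall_congr' fun i => by rw [show (z.map φ).w () i = (z.w () i).map _ from rfl,
          Option.isSome_map]
      by_cases h : ∀ i, (z.w () i).isSome
      · simp only [dif_pos h, dif_pos (e.2 h)]
        exact y.2.1 T T' φ (toOn z h)
      · simp only [dif_neg h, dif_neg (mt e.1 h), map_zero]
    · show (if h : ∀ i, (z.w () i).isSome then y.1 T (toOn z h) else 0) ∈ _
      split_ifs
      · exact hy T _
      · exact zero_mem _
    · exact Subtype.ext (funext fun T => funext fun z => dif_pos fun i => z.on () i rfl)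
  zero n x := Subtype.ext (funext fun T => funext fun z =>
    x.2.2 T _ ⟨(), rfl, fun i => z.on () i rfl⟩)
  exact β n x hx h := ⟨⟨fun T z => x.1 T (re .opt (by decide) (by decide) z),
    fun T T' φ z => x.2.1 T T' φ (re .opt (by decide) (by decide) z), fun T z ⟨_, _, hz⟩ =>
      congrFun (congrFun (congrArg Subtype.val h) T) (toOn z hz)⟩, fun T _ => hx T _, rfl⟩

theorem cone (β : ℝ) (n : ℕ) (g : (fa a hs .opt).C.X (n + 1))
    (hg : g ∈ ((fa a hs .opt).F β).S (n + 1)) (hd : (fa a hs .opt).C.d (n + 1) g = 0) :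
    ∃ u ∈ ((fa a hs .opt).F β).S n, (fa a hs .opt).C.d n u = g := by
  refine ⟨⟨fun T z => g.1 T (cn z), fun T T' φ z => ?_, fun _ _ ⟨_, h, _⟩ => by cases h⟩,
    fun T z => hg T _, Subtype.ext (funext fun T => funext fun z => ?_)⟩
  · refine Eq.trans (congrArg (g.1 T') ?_) (g.2.1 T T' φ (cn z))
    exact Sys.Conf.ext rfl (funext fun _ => funext fun i => Fin.cases rfl (fun _ => rfl) i)
  · have h1 := d_apply g (cn z)
    rw [hd, Fin.sum_univ_succ] at h1
    have h2 : (cn z).res (Fin.succAbove 0) = z := rfl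
    have h3 : ∀ i : Fin (n + 2), (cn z).res (Fin.succAbove i.succ) = cn (z.res (Fin.succAbove i)) :=
      fun i => Sys.Conf.ext rfl (funext fun _ => funext fun j => by
        refine Fin.cases ?_ (fun j => ?_) j
        · show (cn z).w () (Fin.succAbove i.succ 0) = _
          rw [Fin.succ_succAbove_zero]
          rfl
        · show (cn z).w () (Fin.succAbove i.succ j.succ) = _
          rw [Fin.succ_succAbove_succ]
          rfl)
    simp only [h2, h3, Fin.val_zero, pow_zero, one_smul, Fin.val_succ, pow_succ, mul_neg, mul_one,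
      neg_smul, Finset.sum_neg_distrib] at h1
    rw [d_apply]
    exact (add_neg_eq_zero.1 h1.symm).symm

variable (S c) in
/-- a distinguished vertex -/
structure Pt : Type 1 where
  /-- the vertex -/
  o : ∀ T, S.V.obj T
  map : ∀ {T T' : FP p k} (φ : T.Hom T'), S.V.map φ (o T) = o T'
  col : ∀ T, c.P (o T)
  ok1 : ∀ T (x : S.X.obj T), S.ok1 x (o T)
  ok2 : ∀ T, S.ok2 (o T) (o T)
  big : ∀ T : FP p k, ∃ (T' : FP p k) (φ : T.Hom T'), Function.Injective φ.f ∧
    ∀ v : S.V.obj T', c.P v → S.ok2 (o T') v ∧ S.ok2 v (o T')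

/-- the configuration with the distinguished vertex only -/
def Pt.pt (o : Pt S c) (m : Mode) (h : m ≠ .off) (x : S.X.obj T) : Cf S c m 1 T where
  x := x
  w _ _ := some (o.o T)
  col _ _ _ e := Option.some.inj e ▸ ⟨o.col T, o.ok1 T x⟩
  ok _ _ _ _ _ _ e e' := Option.some.inj e ▸ Option.some.inj e' ▸ o.ok2 T
  on _ _ _ := rfl
  off _ _ e := absurd e h

theorem Pt.pt_map (o : Pt S c) (h : m ≠ .off) {T' : FP p k} (φ : T.Hom T') (x : S.X.obj T) :
    (o.pt m h x).map φ = o.pt m h (S.X.map φ x) :=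
  Sys.Conf.ext rfl (funext fun _ => funext fun _ => congrArg some (o.map φ))

theorem Pt.coc (o : Pt S c) (hm : m ≠ .off) {g : (S.cos (fun _ : Unit => c) fun _ => m).X 0}
    (h : (S.cos (fun _ : Unit => c) fun _ => m).d 0 g = 0) (z : Cf S c m 1 T) :
    g.1 T z = g.1 T (o.pt m hm z.x) := by
  obtain ⟨T', φ, h1, h2⟩ := o.big T
  refine h1 ?_
  rw [← g.2.1, ← g.2.1, o.pt_map]
  refine (coc0 h (cons (z.map φ) (some (o.o T')) ?_ (fun _ => rfl) fun e => absurd e hm)).trans
    (congrArg (g.1 T') (Sys.Conf.ext rfl (funext fun _ => funext fun i => ?_)))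
  · rintro v ⟨⟩
    exact ⟨o.col _, o.ok1 _ _, o.ok2 _, fun i u e => h2 u ((z.map φ).col () i u e).1⟩
  · rw [Fin.fin_one_eq_zero i]
    rfl

theorem good_red (o : Pt S c) (q : ℕ)
    (rat : ∀ n, ∃ ρ : ℝ, 1 ≤ ρ ∧ ∀ β : ℝ, 0 ≤ β → (fa a hs .on).Nul (n + 1) β (ρ * β))
    (hc : ∀ n, ∃ ρ : ℝ, 0 ≤ ρ ∧ ∀ e s : ℕ, 1 ≤ e → s % p ^ e = 1 → ∀ β : ℝ, 0 ≤ β →
      NullOn ((fa a hs .on).act s - Hom.id _) ((fa a hs .on).F β)
        ((fa a hs .on).F (β + ρ * β / q ^ e)) n) : (fa a hs .red).Good q := by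
  refine good (Fact.out : p.Prime).one_lt (se a hs) q (cone a hs) (fun g h => ?_)
    (fun β u hu h => ?_) rat hc
  · exact Subtype.ext (funext fun T => funext fun z =>
      (o.coc (by decide) h z).trans (g.2.2 T _ ⟨(), rfl, fun _ => rfl⟩))
  · refine ⟨⟨fun T z => u.1 T (o.pt .opt (by decide) z.x), fun T T' φ z => ?_,
      fun _ _ ⟨_, h, _⟩ => by cases h⟩, fun T z => hu T _,
      Subtype.ext (funext fun T => funext fun z => ?_),
      Subtype.ext (funext fun T => funext fun z => (o.coc (by decide) h z).symm)⟩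
    · exact (congrArg (u.1 T') (o.pt_map _ φ z.x).symm).trans (u.2.1 T T' φ _)
    · rw [d_apply, Fin.sum_univ_two]
      show (-1 : k) ^ 0 • u.1 T (o.pt .opt _ z.x) + (-1 : k) ^ 1 • u.1 T (o.pt .opt _ z.x) = 0
      simp

/-- the same ring with the trivial filtration -/
def top (T : FP p k) : FP p k where
  K := T.K
  F := ⟨fun _ => ⊤, monotone_const, trivial, fun _ _ => trivial, fun _ => trivial⟩
  cl _ _ _ := trivial
  k0 _ := trivial

/-- the distinguished vertex of the colour `A` -/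
def ptA (E : Type) [Fintype E] [DecidableEq E] (h : ℕ) (X : PF p k) :
    Pt (LS p k E h X) (cA p k E h) where
  o _ := (⟨0, false, 0, 0, 0, 0⟩ : LV p E h _)
  map φ := LV.ext (funext fun _ => map_zero φ.w) rfl (Matrix.map_zero _ (map_zero φ.w))
    (Matrix.map_zero _ (map_zero φ.w))
    (funext fun _ => funext fun _ => funext fun _ => map_zero φ.r) rfl
  col T := ⟨fun _ => by
    show Dop p T.K h 0 ∈ _
    rw [map_zero]
    exact zero_mem _, rfl, rfl, rfl, rfl, rfl⟩
  ok1 _ _ := trivial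
  ok2 T := ⟨fun _ => by
    rw [sub_self]
    exact zero_mem _, fun e => by cases e⟩
  big T := ⟨top T, ⟨AlgHom.id k T.K, fun _ _ _ => trivial⟩, Function.injective_id, fun _ _ =>
    ⟨⟨fun _ => Fil.mem_WL.2 fun _ => trivial, fun e => by cases e⟩,
      fun _ => Fil.mem_WL.2 fun _ => trivial, fun _ e => by cases e⟩⟩

end RedAux

/-- from the mode `on` to the mode `red` -/
theorem hred (p : ℕ) [Fact p.Prime] (k : Type) [Field k] (E : Type) [Fintype E] [DecidableEq E]
    (h : ℕ) (B : Type) [CommRing B] [Algebra k B] : HRED p k E h B := fun H =>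
  RedAux.good_red (lact p k E h (PF.base p k B)) (stab_of_sc (sA p k E h).sc)
    (RedAux.ptA E h _) (p ^ h) H.rat H.hc

end P261
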