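import Vale.Agent.P261Z.H.Bt
import Vale.Agent.P261Z.H.On

/-!
# P261Z, block H: the statements over the ground field
-/

noncomputable section

namespace P261.Bt

variable (p : ℕ) [hp : Fact p.Prime] (E : Type) (h : ℕ) (k : Type) [Field k] [Pf p k]

/-- an operator on Witt vectors which is natural for algebra maps acts on the complex -/
def opr (φ : ∀ n, WittVector p (CR p E k n) → WittVector p (CR p E k n))
    (nat : ∀ (m n : ℕ) (f : CR p E k m →ₐ[k] CR p E k n) (x : WittVector p (CR p E k m)),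
      wm p (f : CR p E k m →+* CR p E k n) (φ m x) = φ n (wm p (f : CR p E k m →+* CR p E k n) x)) :
    Cs.Hom (bt p E h k).cos (bt p E h k).cos where
  app n := (ev0 h k fun i l => φ n (uv p h k n i l)).toLinearMap
  nat f x := by
    refine (map_ev0 (ev0 h k fun i l => φ _ (uv p h k _ i l)) _ x).trans
      (Eq.trans ?_ (map_ev0 (ev0 h k fun i => uv p h k _ (f i)) _ x).symm)
    refine congrArg (fun a => ev0 h k a x) (funext₂ fun i l => ?_)
    rw [wm_ev0, nat, wm_ev0]

/-- multiplication by a natural number -/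
def scl (s : ℕ) : Cs.Hom (bt p E h k).cos (bt p E h k).cos :=
  opr p E h k (fun _ x => (s : WittVector p _) * x) fun _ _ _ _ => by rw [map_mul, map_natCast]

theorem scl_app (s n : ℕ) (x : CR p E k n) :
    (scl p E h k s).app n x = ev0 h k (fun i l => (s : WittVector p _) * uv p h k n i l) x := rfl

/-- ratio and small shift over the ground field -/
structure BtH : Prop where
  rat : ∀ n, ∃ ρ : ℝ, 1 ≤ ρ ∧ ∀ β : ℝ, 0 ≤ β →
    Cs.NullOn (Cs.Hom.id _) (G p E h k β) (G p E h k (ρ * β)) (n + 1)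
  hc : ∀ n, ∃ ρ : ℝ, 0 ≤ ρ ∧ ∀ e s : ℕ, 1 ≤ e → s % p ^ e = 1 → ∀ β : ℝ, 0 ≤ β →
    Cs.NullOn (scl p E h k s - Cs.Hom.id _) (G p E h k β) (G p E h k (β + ρ * β / (p ^ h : ℕ) ^ e)) n

/-- the bridge to natural functions over an arbitrary perfect base -/
def HBR : Prop := ∀ [Fintype E] [DecidableEq E] (B : Type) [CommRing B] [Algebra k B] [Pf p B],
  BtH p E h k → OnH p k E h B

end P261.Bt
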