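import Vale.Agent.P261Z.H.Main
import Vale.Agent.P261Z.H.Red
import Vale.Agent.P261Z.H.Br

/-!
# P261Z, block H: the result
-/

namespace P261

theorem onH (p : ℕ) [Fact p.Prime] (k : Type) [Field k] [Pf p k] (E : Type) [Fintype E] [DecidableEq E]
    (h : ℕ) (B : Type) [CommRing B] [Algebra k B] [Pf p B] : OnH p k E h B :=
  Bt.hbr p E h k B (Bt.btH p E h k)

theorem stH (p : ℕ) [Fact p.Prime] (k : Type) [Field k] [Pf p k] : StH p k :=
  fun E _ _ h B _ _ _ _ => hred p k E h B (onH p k E h B)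

end P261
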